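import Mathlib

/-!
An affine expression that is nonnegative at both ends of an interval is nonnegative on it.
-/

namespace Vale.Agent.P231

theorem affine_nonneg {A X Y lo hi u : ℝ} (a : 0 ≤ A - (X + lo * Y)) (b : 0 ≤ A - (X + hi * Y))
    (_hlh : lo ≤ hi) (h1 : lo ≤ u) (h2 : u ≤ hi) : 0 ≤ A - (X + u * Y) := by
  rcases le_total 0 Y with h | h
  · linarith [mul_le_mul_of_nonneg_right h2 h]
  · linarith [mul_le_mul_of_nonpos_right h1 h]

end Vale.Agent.P231
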