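import Vale.Agent.P231.Cert.Closed

/-!
The certificate for `l = 1`, `k = 2`.
-/

namespace Vale.Agent.P231

open Real

/-- The bound at the lower endpoint of the enclosure of `π`. -/
theorem bound_1_2_0 (T : ℝ) (h0 : 0 ≤ T) (h1 : T ≤ 1) :
    let S := 2 * T / (1 + T ^ 2)
    let C := (1 - T ^ 2) / (1 + T ^ 2)
    0 ≤ ((1 : ℝ) / 2) * S ^ 3 - ((2 + S ^ 2) * (((1 : ℝ) / 2) * (S - C * S - C * S ^ 3 / 6))
      + ((15707963 : ℝ) / 5000000) * ((2 + S ^ 2) * (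
      ((-1 : ℝ) / 8) + ((1 : ℝ) / 4) * C + ((-1 : ℝ) / 8) * C ^ 2) + S ^ 3 * (
      0))) := by
  intro S C
  simp only [S, C]
  obtain ⟨U, hU, rfl⟩ : ∃ U : ℝ, 0 ≤ U ∧ T = 1 - U := ⟨1 - T, by linarith, by ring⟩
  set T := 1 - U with hT
  have hpos : (0 : ℝ) ≤ T ^ 3 * (
    ((4 : ℝ) / 3) * (T ^ 0 * U ^ 9) + ((75707963 : ℝ) / 5000000) * (T ^ 1 * U ^ 8) +
      ((40707963 : ℝ) / 625000) * (T ^ 2 * U ^ 7) +
      ((407035371 : ℝ) / 2500000) * (T ^ 3 * U ^ 6) +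
      ((321283149 : ℝ) / 1250000) * (T ^ 4 * U ^ 5) +
      ((131035371 : ℝ) / 500000) * (T ^ 5 * U ^ 4) +
      ((317345003 : ℝ) / 1875000) * (T ^ 6 * U ^ 3) +
      ((46283149 : ℝ) / 625000) * (T ^ 7 * U ^ 2) + ((4623889 : ℝ) / 156250) * (T ^ 8 * U ^ 1) +
      ((7123889 : ℝ) / 625000) * (T ^ 9 * U ^ 0)) := by positivity
  have hd : (0 : ℝ) < (1 + T ^ 2) ^ 6 := by positivity
  refine nonneg_of_mul_nonneg_left (hpos.trans_eq ?_) hd
  field_simp
  rw [hT]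
  ring

/-- The bound at the upper endpoint of the enclosure of `π`. -/
theorem bound_1_2_1 (T : ℝ) (h0 : 0 ≤ T) (h1 : T ≤ 1) :
    let S := 2 * T / (1 + T ^ 2)
    let C := (1 - T ^ 2) / (1 + T ^ 2)
    0 ≤ ((1 : ℝ) / 2) * S ^ 3 - ((2 + S ^ 2) * (((1 : ℝ) / 2) * (S - C * S - C * S ^ 3 / 6))
      + ((31415927 : ℝ) / 10000000) * ((2 + S ^ 2) * (
      ((-1 : ℝ) / 8) + ((1 : ℝ) / 4) * C + ((-1 : ℝ) / 8) * C ^ 2) + S ^ 3 * (
      0))) := by
  intro S C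
  simp only [S, C]
  obtain ⟨U, hU, rfl⟩ : ∃ U : ℝ, 0 ≤ U ∧ T = 1 - U := ⟨1 - T, by linarith, by ring⟩
  set T := 1 - U with hT
  have hpos : (0 : ℝ) ≤ T ^ 3 * (
    ((4 : ℝ) / 3) * (T ^ 0 * U ^ 9) + ((151415927 : ℝ) / 10000000) * (T ^ 1 * U ^ 8) +
      ((81415927 : ℝ) / 1250000) * (T ^ 2 * U ^ 7) +
      ((814070759 : ℝ) / 5000000) * (T ^ 3 * U ^ 6) +
      ((642566321 : ℝ) / 2500000) * (T ^ 4 * U ^ 5) +
      ((262070759 : ℝ) / 1000000) * (T ^ 5 * U ^ 4) +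
      ((634690087 : ℝ) / 3750000) * (T ^ 6 * U ^ 3) +
      ((92566321 : ℝ) / 1250000) * (T ^ 7 * U ^ 2) + ((9247781 : ℝ) / 312500) * (T ^ 8 * U ^ 1) +
      ((14247781 : ℝ) / 1250000) * (T ^ 9 * U ^ 0)) := by positivity
  have hd : (0 : ℝ) < (1 + T ^ 2) ^ 6 := by positivity
  refine nonneg_of_mul_nonneg_left (hpos.trans_eq ?_) hd
  field_simp
  rw [hT]
  ring

/-- The polynomial data for `l = 1`, `k = 2`. -/
noncomputable def data_1_2 : ClosedData 0 1 where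
  p := fun C => (
    ((-1 : ℝ) / 8) + ((1 : ℝ) / 4) * C + ((-1 : ℝ) / 8) * C ^ 2)
  dp := fun C => (
    ((1 : ℝ) / 4) + ((-1 : ℝ) / 4) * C)
  ddp := fun C => (
    ((-1 : ℝ) / 4))
  r := fun C => (
    ((-1 : ℝ) / 8))
  r' := fun C => (
    ((1 : ℝ) / 4))
  j := fun S => (
    0)
  dj := fun S => (
    0)
  R := fun C => (
    ((-1 : ℝ) / 8) * C)
  dR := fun C => (
    ((-1 : ℝ) / 8))
  deriv_p := fun C => (((hasDerivAt_const C ((-1 : ℝ) / 8)).fun_add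
      ((hasDerivAt_id' C).const_mul ((1 : ℝ) / 4))).fun_add
      ((hasDerivAt_pow 2 C).const_mul ((-1 : ℝ) / 8))).congr_deriv (by simp <;> ring)
  deriv_dp := fun C => ((hasDerivAt_const C ((1 : ℝ) / 4)).fun_add
      ((hasDerivAt_id' C).const_mul ((-1 : ℝ) / 4))).congr_deriv (by simp <;> ring)
  deriv_j := fun S => (hasDerivAt_const S (0 : ℝ))
  deriv_R := fun C => ((hasDerivAt_id' C).const_mul ((-1 : ℝ) / 8)).congr_deriv (by simp <;> ring)
  fac := fun C => by ring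
  fac' := fun C => by ring
  cont_r := by fun_prop
  cont_r' := by fun_prop
  ode := fun C => by ring
  jd := fun S C h => by
    linear_combination (
    (0 : ℝ)) * h
  Rd := fun S C h => by
    linear_combination (
    (0 : ℝ)) * h
  d_nonneg := by norm_num
  bound := fun S C hS hC h => by
    have hC1 : 0 < 1 + C := by linarith
    have hT0 : 0 ≤ S / (1 + C) := by positivity
    have hT1 : S / (1 + C) ≤ 1 := by rw [div_le_one hC1]; nlinarith
    have eS : 2 * (S / (1 + C)) / (1 + (S / (1 + C)) ^ 2) = S := by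
      field_simp; linear_combination -h
    have eC : (1 - (S / (1 + C)) ^ 2) / (1 + (S / (1 + C)) ^ 2) = C := by
      field_simp; linear_combination (-(1 + C)) * h
    have a := bound_1_2_0 _ hT0 hT1
    have b := bound_1_2_1 _ hT0 hT1
    simp only [eS, eC] at a b
    have lo : (15707963 : ℝ) / 5000000 ≤ π := by linarith [pi_gt_d20]
    have hi : π ≤ (31415927 : ℝ) / 10000000 := by linarith [pi_lt_d20]
    have key := affine_nonneg a b (by norm_num) lo (by linarith)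
    norm_num at key ⊢
    linarith

end Vale.Agent.P231
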