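import Vale.Agent.P231.Cert.Closed

/-!
The certificate for `l = 3`, `k = 12`.
-/

namespace Vale.Agent.P231

open Real

/-- The bound at the lower endpoint of the enclosure of `π`. -/
theorem bound_3_12_0 (T : ℝ) (h0 : 0 ≤ T) (h1 : T ≤ 1) :
    let S := 2 * T / (1 + T ^ 2)
    let C := (1 - T ^ 2) / (1 + T ^ 2)
    0 ≤ ((2381 : ℝ) / 198450) * S ^ 3 - ((2 + S ^ 2) * (((1294 : ℝ) / 99225) * (S - C * S - C * S ^ 3 / 6))
      + ((15707963 : ℝ) / 5000000) * ((2 + S ^ 2) * (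
      ((-1111 : ℝ) / 322560) + ((647 : ℝ) / 99225) * C + ((-713 : ℝ) / 322560) * C ^ 2 +
        ((-601 : ℝ) / 483840) * C ^ 4 + ((67 : ℝ) / 806400) * C ^ 6 +
        ((127 : ℝ) / 451584) * C ^ 8 + ((1 : ℝ) / 82944) * C ^ 10) + S ^ 3 * (
      ((-1 : ℝ) / 320) * S ^ 5 + ((3 : ℝ) / 1792) * S ^ 7 + ((-1 : ℝ) / 9216) * S ^ 9))) := by
  intro S C
  simp only [S, C]
  obtain ⟨U, hU, rfl⟩ : ∃ U : ℝ, 0 ≤ U ∧ T = 1 - U := ⟨1 - T, by linarith, by ring⟩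
  set T := 1 - U with hT
  have hpos : (0 : ℝ) ≤ T ^ 3 * (
    ((1124 : ℝ) / 42525) * (T ^ 0 * U ^ 21) + ((1124 : ℝ) / 2025) * (T ^ 1 * U ^ 20) +
      ((543308 : ℝ) / 99225) * (T ^ 2 * U ^ 19) +
      ((1024749235049 : ℝ) / 29767500000) * (T ^ 3 * U ^ 18) +
      ((86023211683 : ℝ) / 551250000) * (T ^ 4 * U ^ 17) +
      ((4532458000571 : ℝ) / 8268750000) * (T ^ 5 * U ^ 16) +
      ((1048383081092 : ℝ) / 664453125) * (T ^ 6 * U ^ 15) +
      ((30338720791889 : ℝ) / 7751953125) * (T ^ 7 * U ^ 14) +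
      ((22484010578732 : ℝ) / 2583984375) * (T ^ 8 * U ^ 13) +
      ((468206930360819 : ℝ) / 26578125000) * (T ^ 9 * U ^ 12) +
      ((166047619815863 : ℝ) / 5167968750) * (T ^ 10 * U ^ 11) +
      ((709872549773453 : ℝ) / 13781250000) * (T ^ 11 * U ^ 10) +
      ((13181953275755587 : ℝ) / 186046875000) * (T ^ 12 * U ^ 9) +
      ((6789870474125287 : ℝ) / 82687500000) * (T ^ 13 * U ^ 8) +
      ((817773434096771 : ℝ) / 10335937500) * (T ^ 14 * U ^ 7) +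
      ((6658650299310203 : ℝ) / 106312500000) * (T ^ 15 * U ^ 6) +
      ((4983524846858629 : ℝ) / 124031250000) * (T ^ 16 * U ^ 5) +
      ((5081719783952423 : ℝ) / 248062500000) * (T ^ 17 * U ^ 4) +
      ((1497749616883123 : ℝ) / 186046875000) * (T ^ 18 * U ^ 3) +
      ((6831187174331 : ℝ) / 2953125000) * (T ^ 19 * U ^ 2) +
      ((3398034012853 : ℝ) / 7751953125) * (T ^ 20 * U ^ 1) +
      ((37143428653 : ℝ) / 885937500) * (T ^ 21 * U ^ 0)) := by positivity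
  have hd : (0 : ℝ) < (1 + T ^ 2) ^ 12 := by positivity
  refine nonneg_of_mul_nonneg_left (hpos.trans_eq ?_) hd
  field_simp
  rw [hT]
  ring

/-- The bound at the upper endpoint of the enclosure of `π`. -/
theorem bound_3_12_1 (T : ℝ) (h0 : 0 ≤ T) (h1 : T ≤ 1) :
    let S := 2 * T / (1 + T ^ 2)
    let C := (1 - T ^ 2) / (1 + T ^ 2)
    0 ≤ ((2381 : ℝ) / 198450) * S ^ 3 - ((2 + S ^ 2) * (((1294 : ℝ) / 99225) * (S - C * S - C * S ^ 3 / 6))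
      + ((31415927 : ℝ) / 10000000) * ((2 + S ^ 2) * (
      ((-1111 : ℝ) / 322560) + ((647 : ℝ) / 99225) * C + ((-713 : ℝ) / 322560) * C ^ 2 +
        ((-601 : ℝ) / 483840) * C ^ 4 + ((67 : ℝ) / 806400) * C ^ 6 +
        ((127 : ℝ) / 451584) * C ^ 8 + ((1 : ℝ) / 82944) * C ^ 10) + S ^ 3 * (
      ((-1 : ℝ) / 320) * S ^ 5 + ((3 : ℝ) / 1792) * S ^ 7 + ((-1 : ℝ) / 9216) * S ^ 9))) := by
  intro S C
  simp only [S, C]
  obtain ⟨U, hU, rfl⟩ : ∃ U : ℝ, 0 ≤ U ∧ T = 1 - U := ⟨1 - T, by linarith, by ring⟩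
  set T := 1 - U with hT
  have hpos : (0 : ℝ) ≤ T ^ 3 * (
    ((1124 : ℝ) / 42525) * (T ^ 0 * U ^ 21) + ((1124 : ℝ) / 2025) * (T ^ 1 * U ^ 20) +
      ((543308 : ℝ) / 99225) * (T ^ 2 * U ^ 19) +
      ((2049498471421 : ℝ) / 59535000000) * (T ^ 3 * U ^ 18) +
      ((172046423807 : ℝ) / 1102500000) * (T ^ 4 * U ^ 17) +
      ((9064916061559 : ℝ) / 16537500000) * (T ^ 5 * U ^ 16) +
      ((1048383095834 : ℝ) / 664453125) * (T ^ 6 * U ^ 15) +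
      ((60677443119781 : ℝ) / 15503906250) * (T ^ 7 * U ^ 14) +
      ((22484011461614 : ℝ) / 2583984375) * (T ^ 8 * U ^ 13) +
      ((936413910468751 : ℝ) / 53156250000) * (T ^ 9 * U ^ 12) +
      ((332095261045027 : ℝ) / 10335937500) * (T ^ 10 * U ^ 11) +
      ((1419745202865137 : ℝ) / 27562500000) * (T ^ 11 * U ^ 10) +
      ((26363908628277023 : ℝ) / 372093750000) * (T ^ 12 * U ^ 9) +
      ((13579742082498323 : ℝ) / 165375000000) * (T ^ 13 * U ^ 8) +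
      ((1635547011851359 : ℝ) / 20671875000) * (T ^ 14 * U ^ 7) +
      ((93221112784766209 : ℝ) / 1488375000000) * (T ^ 15 * U ^ 6) +
      ((1423864379836463 : ℝ) / 35437500000) * (T ^ 16 * U ^ 5) +
      ((10163440602205267 : ℝ) / 496125000000) * (T ^ 17 * U ^ 4) +
      ((2995499553695567 : ℝ) / 372093750000) * (T ^ 18 * U ^ 3) +
      ((31878877034731 : ℝ) / 13781250000) * (T ^ 19 * U ^ 2) +
      ((6796068807737 : ℝ) / 15503906250) * (T ^ 20 * U ^ 1) +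
      ((74286865937 : ℝ) / 1771875000) * (T ^ 21 * U ^ 0)) := by positivity
  have hd : (0 : ℝ) < (1 + T ^ 2) ^ 12 := by positivity
  refine nonneg_of_mul_nonneg_left (hpos.trans_eq ?_) hd
  field_simp
  rw [hT]
  ring

/-- The polynomial data for `l = 3`, `k = 12`. -/
noncomputable def data_3_12 : ClosedData 1 6 where
  p := fun C => (
    ((-1111 : ℝ) / 322560) + ((647 : ℝ) / 99225) * C + ((-713 : ℝ) / 322560) * C ^ 2 +
      ((-601 : ℝ) / 483840) * C ^ 4 + ((67 : ℝ) / 806400) * C ^ 6 + ((127 : ℝ) / 451584) * C ^ 8 +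
      ((1 : ℝ) / 82944) * C ^ 10)
  dp := fun C => (
    ((647 : ℝ) / 99225) + ((-713 : ℝ) / 161280) * C + ((-601 : ℝ) / 120960) * C ^ 3 +
      ((67 : ℝ) / 134400) * C ^ 5 + ((127 : ℝ) / 56448) * C ^ 7 + ((5 : ℝ) / 41472) * C ^ 9)
  ddp := fun C => (
    ((-713 : ℝ) / 161280) + ((-601 : ℝ) / 40320) * C ^ 2 + ((67 : ℝ) / 26880) * C ^ 4 +
      ((127 : ℝ) / 8064) * C ^ 6 + ((5 : ℝ) / 4608) * C ^ 8)
  r := fun C => (
    ((-1111 : ℝ) / 322560) + ((-18701 : ℝ) / 50803200) * C + ((25283 : ℝ) / 50803200) * C ^ 2 +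
      ((23089 : ℝ) / 16934400) * C ^ 3 + ((25073 : ℝ) / 25401600) * C ^ 4 +
      ((1241 : ℝ) / 2032128) * C ^ 5 + ((215 : ℝ) / 677376) * C ^ 6 + ((1 : ℝ) / 41472) * C ^ 7 +
      ((1 : ℝ) / 82944) * C ^ 8)
  r' := fun C => (
    ((647 : ℝ) / 99225) + ((106669 : ℝ) / 50803200) * C + ((106669 : ℝ) / 50803200) * C ^ 2 +
      ((-145751 : ℝ) / 50803200) * C ^ 3 + ((-145751 : ℝ) / 50803200) * C ^ 4 +
      ((-4817 : ℝ) / 2032128) * C ^ 5 + ((-4817 : ℝ) / 2032128) * C ^ 6 +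
      ((-5 : ℝ) / 41472) * C ^ 7 + ((-5 : ℝ) / 41472) * C ^ 8)
  j := fun S => (
    ((-1 : ℝ) / 320) * S ^ 5 + ((3 : ℝ) / 1792) * S ^ 7 + ((-1 : ℝ) / 9216) * S ^ 9)
  dj := fun S => (
    ((-1 : ℝ) / 64) * S ^ 4 + ((3 : ℝ) / 256) * S ^ 6 + ((-1 : ℝ) / 1024) * S ^ 8)
  R := fun C => (
    ((-127 : ℝ) / 645120) * C + ((-2339 : ℝ) / 483840) * C ^ 3 + ((-67 : ℝ) / 537600) * C ^ 5 +
      ((461 : ℝ) / 225792) * C ^ 7 + ((19 : ℝ) / 165888) * C ^ 9)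
  dR := fun C => (
    ((-127 : ℝ) / 645120) + ((-2339 : ℝ) / 161280) * C ^ 2 + ((-67 : ℝ) / 107520) * C ^ 4 +
      ((461 : ℝ) / 32256) * C ^ 6 + ((19 : ℝ) / 18432) * C ^ 8)
  deriv_p := fun C => (((((((hasDerivAt_const C ((-1111 : ℝ) / 322560)).fun_add
      ((hasDerivAt_id' C).const_mul ((647 : ℝ) / 99225))).fun_add
      ((hasDerivAt_pow 2 C).const_mul ((-713 : ℝ) / 322560))).fun_add
      ((hasDerivAt_pow 4 C).const_mul ((-601 : ℝ) / 483840))).fun_add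
      ((hasDerivAt_pow 6 C).const_mul ((67 : ℝ) / 806400))).fun_add
      ((hasDerivAt_pow 8 C).const_mul ((127 : ℝ) / 451584))).fun_add
      ((hasDerivAt_pow 10 C).const_mul ((1 : ℝ) / 82944))).congr_deriv (by simp <;> ring)
  deriv_dp := fun C => ((((((hasDerivAt_const C ((647 : ℝ) / 99225)).fun_add
      ((hasDerivAt_id' C).const_mul ((-713 : ℝ) / 161280))).fun_add
      ((hasDerivAt_pow 3 C).const_mul ((-601 : ℝ) / 120960))).fun_add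
      ((hasDerivAt_pow 5 C).const_mul ((67 : ℝ) / 134400))).fun_add
      ((hasDerivAt_pow 7 C).const_mul ((127 : ℝ) / 56448))).fun_add
      ((hasDerivAt_pow 9 C).const_mul ((5 : ℝ) / 41472))).congr_deriv (by simp <;> ring)
  deriv_j := fun S => ((((hasDerivAt_pow 5 S).const_mul ((-1 : ℝ) / 320)).fun_add
      ((hasDerivAt_pow 7 S).const_mul ((3 : ℝ) / 1792))).fun_add
      ((hasDerivAt_pow 9 S).const_mul ((-1 : ℝ) / 9216))).congr_deriv (by simp <;> ring)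
  deriv_R := fun C => ((((((hasDerivAt_id' C).const_mul ((-127 : ℝ) / 645120)).fun_add
      ((hasDerivAt_pow 3 C).const_mul ((-2339 : ℝ) / 483840))).fun_add
      ((hasDerivAt_pow 5 C).const_mul ((-67 : ℝ) / 537600))).fun_add
      ((hasDerivAt_pow 7 C).const_mul ((461 : ℝ) / 225792))).fun_add
      ((hasDerivAt_pow 9 C).const_mul ((19 : ℝ) / 165888))).congr_deriv (by simp <;> ring)
  fac := fun C => by ring
  fac' := fun C => by ring
  cont_r := by fun_prop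
  cont_r' := by fun_prop
  ode := fun C => by ring
  jd := fun S C h => by
    linear_combination (
    ((-1 : ℝ) / 64) * C * (S ^ 2 * (1 - C ^ 2) ^ 0) +
      ((-1 : ℝ) / 64) * C * (S ^ 0 * (1 - C ^ 2) ^ 1) +
      ((3 : ℝ) / 256) * C * (S ^ 4 * (1 - C ^ 2) ^ 0) +
      ((3 : ℝ) / 256) * C * (S ^ 2 * (1 - C ^ 2) ^ 1) +
      ((3 : ℝ) / 256) * C * (S ^ 0 * (1 - C ^ 2) ^ 2) +
      ((-1 : ℝ) / 1024) * C * (S ^ 6 * (1 - C ^ 2) ^ 0) +
      ((-1 : ℝ) / 1024) * C * (S ^ 4 * (1 - C ^ 2) ^ 1) +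
      ((-1 : ℝ) / 1024) * C * (S ^ 2 * (1 - C ^ 2) ^ 2) +
      ((-1 : ℝ) / 1024) * C * (S ^ 0 * (1 - C ^ 2) ^ 3)) * h
  Rd := fun S C h => by
    linear_combination (
    ((1 : ℝ) / 320) * (S ^ 3 * (1 - C ^ 2) ^ 0) + ((1 : ℝ) / 320) * (S ^ 1 * (1 - C ^ 2) ^ 1) +
      ((-3 : ℝ) / 1792) * (S ^ 5 * (1 - C ^ 2) ^ 0) +
      ((-3 : ℝ) / 1792) * (S ^ 3 * (1 - C ^ 2) ^ 1) +
      ((-3 : ℝ) / 1792) * (S ^ 1 * (1 - C ^ 2) ^ 2) +
      ((1 : ℝ) / 9216) * (S ^ 7 * (1 - C ^ 2) ^ 0) +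
      ((1 : ℝ) / 9216) * (S ^ 5 * (1 - C ^ 2) ^ 1) +
      ((1 : ℝ) / 9216) * (S ^ 3 * (1 - C ^ 2) ^ 2) +
      ((1 : ℝ) / 9216) * (S ^ 1 * (1 - C ^ 2) ^ 3) + (-1 : ℝ) * ((((1 - C) / 2) ^ 6 + ((1 +
      C) / 2) ^ 6) / 16) * (S ^ 1 * (1 - C ^ 2) ^ 0)) * h
  d_nonneg := by norm_num
  bound := fun S C hS hC h => by
    have hC1 : 0 < 1 + C := by linarith
    have hT0 : 0 ≤ S / (1 + C) := by positivity
    have hT1 : S / (1 + C) ≤ 1 := by rw [div_le_one hC1]; nlinarith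
    have eS : 2 * (S / (1 + C)) / (1 + (S / (1 + C)) ^ 2) = S := by
      field_simp; linear_combination -h
    have eC : (1 - (S / (1 + C)) ^ 2) / (1 + (S / (1 + C)) ^ 2) = C := by
      field_simp; linear_combination (-(1 + C)) * h
    have a := bound_3_12_0 _ hT0 hT1
    have b := bound_3_12_1 _ hT0 hT1
    simp only [eS, eC] at a b
    have lo : (15707963 : ℝ) / 5000000 ≤ π := by linarith [pi_gt_d20]
    have hi : π ≤ (31415927 : ℝ) / 10000000 := by linarith [pi_lt_d20]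
    have key := affine_nonneg a b (by norm_num) lo (by linarith)
    norm_num at key ⊢
    linarith

end Vale.Agent.P231
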