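import Vale.Agent.P231.Cert.Closed

/-!
The certificate for `l = 3`, `k = 16`.
-/

namespace Vale.Agent.P231

open Real

/-- The bound at the lower endpoint of the enclosure of `π`. -/
theorem bound_3_16_0 (T : ℝ) (h0 : 0 ≤ T) (h1 : T ≤ 1) :
    let S := 2 * T / (1 + T ^ 2)
    let C := (1 - T ^ 2) / (1 + T ^ 2)
    0 ≤ ((124799 : ℝ) / 16008300) * S ^ 3 - ((2 + S ^ 2) * (((114227 : ℝ) / 12006225) * (S - C * S - C * S ^ 3 / 6))
      + ((15707963 : ℝ) / 5000000) * ((2 + S ^ 2) * (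
      ((-37627 : ℝ) / 14192640) + ((114227 : ℝ) / 24012450) * C +
        ((-10273 : ℝ) / 7096320) * C ^ 2 + ((-27659 : ℝ) / 42577920) * C ^ 4 +
        ((-5623 : ℝ) / 17740800) * C ^ 6 + ((4465 : ℝ) / 19869696) * C ^ 8 +
        ((149 : ℝ) / 1824768) * C ^ 10 + ((1 : ℝ) / 495616) * C ^ 12) + S ^ 3 * (
      ((-1 : ℝ) / 320) * S ^ 5 + ((5 : ℝ) / 1792) * S ^ 7 + ((-1 : ℝ) / 1536) * S ^ 9 +
        ((1 : ℝ) / 45056) * S ^ 11))) := by
  intro S C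
  simp only [S, C]
  obtain ⟨U, hU, rfl⟩ : ∃ U : ℝ, 0 ≤ U ∧ T = 1 - U := ⟨1 - T, by linarith, by ring⟩
  set T := 1 - U with hT
  have hpos : (0 : ℝ) ≤ T ^ 3 * (
    ((16750 : ℝ) / 1440747) * (T ^ 0 * U ^ 25) + ((418750 : ℝ) / 1440747) * (T ^ 1 * U ^ 24) +
      ((17429558 : ℝ) / 5145525) * (T ^ 2 * U ^ 23) +
      ((30168487213643 : ℝ) / 1200622500000) * (T ^ 3 * U ^ 22) +
      ((22125365040929 : ℝ) / 163721250000) * (T ^ 4 * U ^ 21) +
      ((53369799622499 : ℝ) / 93555000000) * (T ^ 5 * U ^ 20) +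
      ((241991889442097 : ℝ) / 120062250000) * (T ^ 6 * U ^ 19) +
      ((568670289383431547 : ℝ) / 90046687500000) * (T ^ 7 * U ^ 18) +
      ((16798027201810477 : ℝ) / 918843750000) * (T ^ 8 * U ^ 17) +
      ((211586829478294159 : ℝ) / 4287937500000) * (T ^ 9 * U ^ 16) +
      ((137137197780940429 : ℝ) / 1125583593750) * (T ^ 10 * U ^ 15) +
      ((602768797414125827 : ℝ) / 2251167187500) * (T ^ 11 * U ^ 14) +
      ((412326797585548273 : ℝ) / 803988281250) * (T ^ 12 * U ^ 13) +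
      ((376114187861023253 : ℝ) / 444675000000) * (T ^ 13 * U ^ 12) +
      ((7679875836020475869 : ℝ) / 6431906250000) * (T ^ 14 * U ^ 11) +
      ((1177460627103984187 : ℝ) / 818606250000) * (T ^ 15 * U ^ 10) +
      ((1106778961697957279 : ℝ) / 750389062500) * (T ^ 16 * U ^ 9) +
      ((115541436339637177283 : ℝ) / 90046687500000) * (T ^ 17 * U ^ 8) +
      ((1514708677110567353 : ℝ) / 1607976562500) * (T ^ 18 * U ^ 7) +
      ((2895114387291072293 : ℝ) / 5002593750000) * (T ^ 19 * U ^ 6) +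
      ((1322319562467208103 : ℝ) / 4502334375000) * (T ^ 20 * U ^ 5) +
      ((2173148355852865733 : ℝ) / 18009337500000) * (T ^ 21 * U ^ 4) +
      ((124985404370244323 : ℝ) / 3215953125000) * (T ^ 22 * U ^ 3) +
      ((34837895231634499 : ℝ) / 3751945312500) * (T ^ 23 * U ^ 2) +
      ((5545850464843499 : ℝ) / 3751945312500) * (T ^ 24 * U ^ 1) +
      ((6618948894043 : ℝ) / 55584375000) * (T ^ 25 * U ^ 0)) := by positivity
  have hd : (0 : ℝ) < (1 + T ^ 2) ^ 14 := by positivity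
  refine nonneg_of_mul_nonneg_left (hpos.trans_eq ?_) hd
  field_simp
  rw [hT]
  ring

/-- The bound at the upper endpoint of the enclosure of `π`. -/
theorem bound_3_16_1 (T : ℝ) (h0 : 0 ≤ T) (h1 : T ≤ 1) :
    let S := 2 * T / (1 + T ^ 2)
    let C := (1 - T ^ 2) / (1 + T ^ 2)
    0 ≤ ((124799 : ℝ) / 16008300) * S ^ 3 - ((2 + S ^ 2) * (((114227 : ℝ) / 12006225) * (S - C * S - C * S ^ 3 / 6))
      + ((31415927 : ℝ) / 10000000) * ((2 + S ^ 2) * (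
      ((-37627 : ℝ) / 14192640) + ((114227 : ℝ) / 24012450) * C +
        ((-10273 : ℝ) / 7096320) * C ^ 2 + ((-27659 : ℝ) / 42577920) * C ^ 4 +
        ((-5623 : ℝ) / 17740800) * C ^ 6 + ((4465 : ℝ) / 19869696) * C ^ 8 +
        ((149 : ℝ) / 1824768) * C ^ 10 + ((1 : ℝ) / 495616) * C ^ 12) + S ^ 3 * (
      ((-1 : ℝ) / 320) * S ^ 5 + ((5 : ℝ) / 1792) * S ^ 7 + ((-1 : ℝ) / 1536) * S ^ 9 +
        ((1 : ℝ) / 45056) * S ^ 11))) := by
  intro S C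
  simp only [S, C]
  obtain ⟨U, hU, rfl⟩ : ∃ U : ℝ, 0 ≤ U ∧ T = 1 - U := ⟨1 - T, by linarith, by ring⟩
  set T := 1 - U with hT
  have hpos : (0 : ℝ) ≤ T ^ 3 * (
    ((16750 : ℝ) / 1440747) * (T ^ 0 * U ^ 25) + ((418750 : ℝ) / 1440747) * (T ^ 1 * U ^ 24) +
      ((17429558 : ℝ) / 5145525) * (T ^ 2 * U ^ 23) +
      ((60336974480647 : ℝ) / 2401245000000) * (T ^ 3 * U ^ 22) +
      ((44250730241941 : ℝ) / 327442500000) * (T ^ 4 * U ^ 21) +
      ((106739600257471 : ℝ) / 187110000000) * (T ^ 5 * U ^ 20) +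
      ((483983788435813 : ℝ) / 240124500000) * (T ^ 6 * U ^ 19) +
      ((1137340617715079863 : ℝ) / 180093375000000) * (T ^ 7 * U ^ 18) +
      ((235172392642931831 : ℝ) / 12863812500000) * (T ^ 8 * U ^ 17) +
      ((423173685959835611 : ℝ) / 8575875000000) * (T ^ 9 * U ^ 16) +
      ((274274415576227441 : ℝ) / 2251167187500) * (T ^ 10 * U ^ 15) +
      ((1205537689265813983 : ℝ) / 4502334375000) * (T ^ 11 * U ^ 14) +
      ((824653662324234917 : ℝ) / 1607976562500) * (T ^ 12 * U ^ 13) +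
      ((6770055947072984033 : ℝ) / 8004150000000) * (T ^ 13 * U ^ 12) +
      ((15359752984723555201 : ℝ) / 12863812500000) * (T ^ 14 * U ^ 11) +
      ((2354921460587906423 : ℝ) / 1637212500000) * (T ^ 15 * U ^ 10) +
      ((2213558123262466091 : ℝ) / 1500778125000) * (T ^ 16 * U ^ 9) +
      ((231082894291735426207 : ℝ) / 180093375000000) * (T ^ 17 * U ^ 8) +
      ((21205923544184717659 : ℝ) / 22511671875000) * (T ^ 18 * U ^ 7) +
      ((5790229363682331497 : ℝ) / 10005187500000) * (T ^ 19 * U ^ 6) +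
      ((2644639406650219987 : ℝ) / 9004668750000) * (T ^ 20 * U ^ 5) +
      ((4346297196143141257 : ℝ) / 36018675000000) * (T ^ 21 * U ^ 4) +
      ((1749795864446192569 : ℝ) / 45023343750000) * (T ^ 22 * U ^ 3) +
      ((69675798831005471 : ℝ) / 7503890625000) * (T ^ 23 * U ^ 2) +
      ((11091702289066471 : ℝ) / 7503890625000) * (T ^ 24 * U ^ 1) +
      ((13237899412247 : ℝ) / 111168750000) * (T ^ 25 * U ^ 0)) := by positivity
  have hd : (0 : ℝ) < (1 + T ^ 2) ^ 14 := by positivity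
  refine nonneg_of_mul_nonneg_left (hpos.trans_eq ?_) hd
  field_simp
  rw [hT]
  ring

/-- The polynomial data for `l = 3`, `k = 16`. -/
noncomputable def data_3_16 : ClosedData 1 8 where
  p := fun C => (
    ((-37627 : ℝ) / 14192640) + ((114227 : ℝ) / 24012450) * C + ((-10273 : ℝ) / 7096320) * C ^ 2 +
      ((-27659 : ℝ) / 42577920) * C ^ 4 + ((-5623 : ℝ) / 17740800) * C ^ 6 +
      ((4465 : ℝ) / 19869696) * C ^ 8 + ((149 : ℝ) / 1824768) * C ^ 10 +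
      ((1 : ℝ) / 495616) * C ^ 12)
  dp := fun C => (
    ((114227 : ℝ) / 24012450) + ((-10273 : ℝ) / 3548160) * C + ((-27659 : ℝ) / 10644480) * C ^ 3 +
      ((-5623 : ℝ) / 2956800) * C ^ 5 + ((4465 : ℝ) / 2483712) * C ^ 7 +
      ((745 : ℝ) / 912384) * C ^ 9 + ((3 : ℝ) / 123904) * C ^ 11)
  ddp := fun C => (
    ((-10273 : ℝ) / 3548160) + ((-27659 : ℝ) / 3548160) * C ^ 2 + ((-5623 : ℝ) / 591360) * C ^ 4 +
      ((4465 : ℝ) / 354816) * C ^ 6 + ((745 : ℝ) / 101376) * C ^ 8 + ((3 : ℝ) / 11264) * C ^ 10)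
  r := fun C => (
    ((-37627 : ℝ) / 14192640) + ((-13409107 : ℝ) / 24588748800) * C +
      ((5549237 : ℝ) / 49177497600) * C ^ 2 + ((789931 : ℝ) / 1024531200) * C ^ 3 +
      ((19168997 : ℝ) / 24588748800) * C ^ 4 + ((387593 : ℝ) / 491774976) * C ^ 5 +
      ((157291 : ℝ) / 327849984) * C ^ 6 + ((215 : ℝ) / 1254528) * C ^ 7 +
      ((3521 : ℝ) / 40144896) * C ^ 8 + ((1 : ℝ) / 247808) * C ^ 9 + ((1 : ℝ) / 495616) * C ^ 10)
  r' := fun C => (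
    ((114227 : ℝ) / 24012450) + ((22888279 : ℝ) / 12294374400) * C +
      ((22888279 : ℝ) / 12294374400) * C ^ 2 + ((-4528933 : ℝ) / 6147187200) * C ^ 3 +
      ((-4528933 : ℝ) / 6147187200) * C ^ 4 + ((-324383 : ℝ) / 122943744) * C ^ 5 +
      ((-324383 : ℝ) / 122943744) * C ^ 6 + ((-4219 : ℝ) / 5018112) * C ^ 7 +
      ((-4219 : ℝ) / 5018112) * C ^ 8 + ((-3 : ℝ) / 123904) * C ^ 9 +
      ((-3 : ℝ) / 123904) * C ^ 10)
  j := fun S => (
    ((-1 : ℝ) / 320) * S ^ 5 + ((5 : ℝ) / 1792) * S ^ 7 + ((-1 : ℝ) / 1536) * S ^ 9 +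
      ((1 : ℝ) / 45056) * S ^ 11)
  dj := fun S => (
    ((-1 : ℝ) / 64) * S ^ 4 + ((5 : ℝ) / 256) * S ^ 6 + ((-3 : ℝ) / 512) * S ^ 8 +
      ((1 : ℝ) / 4096) * S ^ 10)
  R := fun C => (
    ((2249 : ℝ) / 9461760) * C + ((-64133 : ℝ) / 28385280) * C ^ 3 +
      ((-17401 : ℝ) / 7884800) * C ^ 5 + ((9895 : ℝ) / 6623232) * C ^ 7 +
      ((1855 : ℝ) / 2433024) * C ^ 9 + ((23 : ℝ) / 991232) * C ^ 11)
  dR := fun C => (
    ((2249 : ℝ) / 9461760) + ((-64133 : ℝ) / 9461760) * C ^ 2 + ((-17401 : ℝ) / 1576960) * C ^ 4 +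
      ((9895 : ℝ) / 946176) * C ^ 6 + ((1855 : ℝ) / 270336) * C ^ 8 +
      ((23 : ℝ) / 90112) * C ^ 10)
  deriv_p := fun C => ((((((((hasDerivAt_const C ((-37627 : ℝ) / 14192640)).fun_add
      ((hasDerivAt_id' C).const_mul ((114227 : ℝ) / 24012450))).fun_add
      ((hasDerivAt_pow 2 C).const_mul ((-10273 : ℝ) / 7096320))).fun_add
      ((hasDerivAt_pow 4 C).const_mul ((-27659 : ℝ) / 42577920))).fun_add
      ((hasDerivAt_pow 6 C).const_mul ((-5623 : ℝ) / 17740800))).fun_add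
      ((hasDerivAt_pow 8 C).const_mul ((4465 : ℝ) / 19869696))).fun_add
      ((hasDerivAt_pow 10 C).const_mul ((149 : ℝ) / 1824768))).fun_add
      ((hasDerivAt_pow 12 C).const_mul ((1 : ℝ) / 495616))).congr_deriv (by simp <;> ring)
  deriv_dp := fun C => (((((((hasDerivAt_const C ((114227 : ℝ) / 24012450)).fun_add
      ((hasDerivAt_id' C).const_mul ((-10273 : ℝ) / 3548160))).fun_add
      ((hasDerivAt_pow 3 C).const_mul ((-27659 : ℝ) / 10644480))).fun_add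
      ((hasDerivAt_pow 5 C).const_mul ((-5623 : ℝ) / 2956800))).fun_add
      ((hasDerivAt_pow 7 C).const_mul ((4465 : ℝ) / 2483712))).fun_add
      ((hasDerivAt_pow 9 C).const_mul ((745 : ℝ) / 912384))).fun_add
      ((hasDerivAt_pow 11 C).const_mul ((3 : ℝ) / 123904))).congr_deriv (by simp <;> ring)
  deriv_j := fun S => (((((hasDerivAt_pow 5 S).const_mul ((-1 : ℝ) / 320)).fun_add
      ((hasDerivAt_pow 7 S).const_mul ((5 : ℝ) / 1792))).fun_add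
      ((hasDerivAt_pow 9 S).const_mul ((-1 : ℝ) / 1536))).fun_add
      ((hasDerivAt_pow 11 S).const_mul ((1 : ℝ) / 45056))).congr_deriv (by simp <;> ring)
  deriv_R := fun C => (((((((hasDerivAt_id' C).const_mul ((2249 : ℝ) / 9461760)).fun_add
      ((hasDerivAt_pow 3 C).const_mul ((-64133 : ℝ) / 28385280))).fun_add
      ((hasDerivAt_pow 5 C).const_mul ((-17401 : ℝ) / 7884800))).fun_add
      ((hasDerivAt_pow 7 C).const_mul ((9895 : ℝ) / 6623232))).fun_add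
      ((hasDerivAt_pow 9 C).const_mul ((1855 : ℝ) / 2433024))).fun_add
      ((hasDerivAt_pow 11 C).const_mul ((23 : ℝ) / 991232))).congr_deriv (by simp <;> ring)
  fac := fun C => by ring
  fac' := fun C => by ring
  cont_r := by fun_prop
  cont_r' := by fun_prop
  ode := fun C => by ring
  jd := fun S C h => by
    linear_combination (
    ((-1 : ℝ) / 64) * C * (S ^ 2 * (1 - C ^ 2) ^ 0) +
      ((-1 : ℝ) / 64) * C * (S ^ 0 * (1 - C ^ 2) ^ 1) +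
      ((5 : ℝ) / 256) * C * (S ^ 4 * (1 - C ^ 2) ^ 0) +
      ((5 : ℝ) / 256) * C * (S ^ 2 * (1 - C ^ 2) ^ 1) +
      ((5 : ℝ) / 256) * C * (S ^ 0 * (1 - C ^ 2) ^ 2) +
      ((-3 : ℝ) / 512) * C * (S ^ 6 * (1 - C ^ 2) ^ 0) +
      ((-3 : ℝ) / 512) * C * (S ^ 4 * (1 - C ^ 2) ^ 1) +
      ((-3 : ℝ) / 512) * C * (S ^ 2 * (1 - C ^ 2) ^ 2) +
      ((-3 : ℝ) / 512) * C * (S ^ 0 * (1 - C ^ 2) ^ 3) +
      ((1 : ℝ) / 4096) * C * (S ^ 8 * (1 - C ^ 2) ^ 0) +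
      ((1 : ℝ) / 4096) * C * (S ^ 6 * (1 - C ^ 2) ^ 1) +
      ((1 : ℝ) / 4096) * C * (S ^ 4 * (1 - C ^ 2) ^ 2) +
      ((1 : ℝ) / 4096) * C * (S ^ 2 * (1 - C ^ 2) ^ 3) +
      ((1 : ℝ) / 4096) * C * (S ^ 0 * (1 - C ^ 2) ^ 4)) * h
  Rd := fun S C h => by
    linear_combination (
    ((1 : ℝ) / 320) * (S ^ 3 * (1 - C ^ 2) ^ 0) + ((1 : ℝ) / 320) * (S ^ 1 * (1 - C ^ 2) ^ 1) +
      ((-5 : ℝ) / 1792) * (S ^ 5 * (1 - C ^ 2) ^ 0) +
      ((-5 : ℝ) / 1792) * (S ^ 3 * (1 - C ^ 2) ^ 1) +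
      ((-5 : ℝ) / 1792) * (S ^ 1 * (1 - C ^ 2) ^ 2) +
      ((1 : ℝ) / 1536) * (S ^ 7 * (1 - C ^ 2) ^ 0) +
      ((1 : ℝ) / 1536) * (S ^ 5 * (1 - C ^ 2) ^ 1) +
      ((1 : ℝ) / 1536) * (S ^ 3 * (1 - C ^ 2) ^ 2) +
      ((1 : ℝ) / 1536) * (S ^ 1 * (1 - C ^ 2) ^ 3) +
      ((-1 : ℝ) / 45056) * (S ^ 9 * (1 - C ^ 2) ^ 0) +
      ((-1 : ℝ) / 45056) * (S ^ 7 * (1 - C ^ 2) ^ 1) +
      ((-1 : ℝ) / 45056) * (S ^ 5 * (1 - C ^ 2) ^ 2) +
      ((-1 : ℝ) / 45056) * (S ^ 3 * (1 - C ^ 2) ^ 3) +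
      ((-1 : ℝ) / 45056) * (S ^ 1 * (1 - C ^ 2) ^ 4) + (-1 : ℝ) * ((((1 - C) / 2) ^ 8 + ((1 +
      C) / 2) ^ 8) / 16) * (S ^ 1 * (1 - C ^ 2) ^ 0)) * h
  d_nonneg := by norm_num
  bound := fun S C hS hC h => by
    have hC1 : 0 < 1 + C := by linarith
    have hT0 : 0 ≤ S / (1 + C) := by positivity
    have hT1 : S / (1 + C) ≤ 1 := by rw [div_le_one hC1]; nlinarith
    have eS : 2 * (S / (1 + C)) / (1 + (S / (1 + C)) ^ 2) = S := by
      field_simp; linear_combination -h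
    have eC : (1 - (S / (1 + C)) ^ 2) / (1 + (S / (1 + C)) ^ 2) = C := by
      field_simp; linear_combination (-(1 + C)) * h
    have a := bound_3_16_0 _ hT0 hT1
    have b := bound_3_16_1 _ hT0 hT1
    simp only [eS, eC] at a b
    have lo : (15707963 : ℝ) / 5000000 ≤ π := by linarith [pi_gt_d20]
    have hi : π ≤ (31415927 : ℝ) / 10000000 := by linarith [pi_lt_d20]
    have key := affine_nonneg a b (by norm_num) lo (by linarith)
    norm_num at key ⊢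
    linarith

end Vale.Agent.P231
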