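import Vale.Agent.P231.Cert.Closed

/-!
The certificate for `l = 3`, `k = 20`.
-/

namespace Vale.Agent.P231

open Real

/-- The bound at the lower endpoint of the enclosure of `π`. -/
theorem bound_3_20_0 (T : ℝ) (h0 : 0 ≤ T) (h1 : T ≤ 1) :
    let S := 2 * T / (1 + T ^ 2)
    let C := (1 - T ^ 2) / (1 + T ^ 2)
    0 ≤ ((530102 : ℝ) / 96621525) * S ^ 3 - ((2 + S ^ 2) * (((426281 : ℝ) / 57972915) * (S - C * S - C * S ^ 3 / 6))
      + ((15707963 : ℝ) / 5000000) * ((2 + S ^ 2) * (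
      ((-44647 : ℝ) / 21086208) + ((426281 : ℝ) / 115945830) * C +
        ((-22967 : ℝ) / 21086208) * C ^ 2 + ((-19577 : ℝ) / 63258624) * C ^ 4 +
        ((-35743 : ℝ) / 105431040) * C ^ 6 + ((4205 : ℝ) / 147603456) * C ^ 8 +
        ((24179 : ℝ) / 189775872) * C ^ 10 + ((573 : ℝ) / 25772032) * C ^ 12 +
        ((1 : ℝ) / 2768896) * C ^ 14) + S ^ 3 * (
      ((-1 : ℝ) / 320) * S ^ 5 + ((1 : ℝ) / 256) * S ^ 7 + ((-5 : ℝ) / 3072) * S ^ 9 +
        ((5 : ℝ) / 22528) * S ^ 11 + ((-1 : ℝ) / 212992) * S ^ 13))) := by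
  intro S C
  simp only [S, C]
  obtain ⟨U, hU, rfl⟩ : ∃ U : ℝ, 0 ≤ U ∧ T = 1 - U := ⟨1 - T, by linarith, by ring⟩
  set T := 1 - U with hT
  have hpos : (0 : ℝ) ≤ T ^ 3 * (
    ((4064864 : ℝ) / 869593725) * (T ^ 0 * U ^ 29) +
      ((117881056 : ℝ) / 869593725) * (T ^ 1 * U ^ 28) +
      ((1549716856 : ℝ) / 869593725) * (T ^ 2 * U ^ 27) +
      ((141593554843127 : ℝ) / 9662152500000) * (T ^ 3 * U ^ 26) +
      ((13797458018483 : ℝ) / 159266250000) * (T ^ 4 * U ^ 25) +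
      ((4513180559095541 : ℝ) / 11148637500000) * (T ^ 5 * U ^ 24) +
      ((89226272641713547 : ℝ) / 54349607812500) * (T ^ 6 * U ^ 23) +
      ((1376467402911142271 : ℝ) / 217398431250000) * (T ^ 7 * U ^ 22) +
      ((2636199219696683593 : ℝ) / 108699215625000) * (T ^ 8 * U ^ 21) +
      ((486767880531399223 : ℝ) / 5434960781250) * (T ^ 9 * U ^ 20) +
      ((106348979236918193 : ℝ) / 352919531250) * (T ^ 10 * U ^ 19) +
      ((386357910970363309837 : ℝ) / 434796862500000) * (T ^ 11 * U ^ 18) +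
      ((163742532819053496967 : ℝ) / 72466143750000) * (T ^ 12 * U ^ 17) +
      ((27528508160095869649 : ℝ) / 5574318750000) * (T ^ 13 * U ^ 16) +
      ((42099722289916373968 : ℝ) / 4529133984375) * (T ^ 14 * U ^ 15) +
      ((821757857474670908003 : ℝ) / 54349607812500) * (T ^ 15 * U ^ 14) +
      ((957759216583818253 : ℝ) / 44917031250) * (T ^ 16 * U ^ 13) +
      ((218493515480522068883 : ℝ) / 8361478125000) * (T ^ 17 * U ^ 12) +
      ((108142584470301257159 : ℝ) / 3882114843750) * (T ^ 18 * U ^ 11) +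
      ((11226990180979993696093 : ℝ) / 434796862500000) * (T ^ 19 * U ^ 10) +
      ((4514798317645044776513 : ℝ) / 217398431250000) * (T ^ 20 * U ^ 9) +
      ((697266014512510766929 : ℝ) / 48310762500000) * (T ^ 21 * U ^ 8) +
      ((155988823867275127697 : ℝ) / 18116535937500) * (T ^ 22 * U ^ 7) +
      ((632723425883123275639 : ℝ) / 144932287500000) * (T ^ 23 * U ^ 6) +
      ((80601803076383098219 : ℝ) / 43479686250000) * (T ^ 24 * U ^ 5) +
      ((8011327389505749709 : ℝ) / 12422767500000) * (T ^ 25 * U ^ 4) +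
      ((19304483603036747669 : ℝ) / 108699215625000) * (T ^ 26 * U ^ 3) +
      ((1324340276715732361 : ℝ) / 36233071875000) * (T ^ 27 * U ^ 2) +
      ((22804769854423136 : ℝ) / 4529133984375) * (T ^ 28 * U ^ 1) +
      ((48202423901798 : ℝ) / 137246484375) * (T ^ 29 * U ^ 0)) := by positivity
  have hd : (0 : ℝ) < (1 + T ^ 2) ^ 16 := by positivity
  refine nonneg_of_mul_nonneg_left (hpos.trans_eq ?_) hd
  field_simp
  rw [hT]
  ring

/-- The bound at the upper endpoint of the enclosure of `π`. -/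
theorem bound_3_20_1 (T : ℝ) (h0 : 0 ≤ T) (h1 : T ≤ 1) :
    let S := 2 * T / (1 + T ^ 2)
    let C := (1 - T ^ 2) / (1 + T ^ 2)
    0 ≤ ((530102 : ℝ) / 96621525) * S ^ 3 - ((2 + S ^ 2) * (((426281 : ℝ) / 57972915) * (S - C * S - C * S ^ 3 / 6))
      + ((31415927 : ℝ) / 10000000) * ((2 + S ^ 2) * (
      ((-44647 : ℝ) / 21086208) + ((426281 : ℝ) / 115945830) * C +
        ((-22967 : ℝ) / 21086208) * C ^ 2 + ((-19577 : ℝ) / 63258624) * C ^ 4 +
        ((-35743 : ℝ) / 105431040) * C ^ 6 + ((4205 : ℝ) / 147603456) * C ^ 8 +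
        ((24179 : ℝ) / 189775872) * C ^ 10 + ((573 : ℝ) / 25772032) * C ^ 12 +
        ((1 : ℝ) / 2768896) * C ^ 14) + S ^ 3 * (
      ((-1 : ℝ) / 320) * S ^ 5 + ((1 : ℝ) / 256) * S ^ 7 + ((-5 : ℝ) / 3072) * S ^ 9 +
        ((5 : ℝ) / 22528) * S ^ 11 + ((-1 : ℝ) / 212992) * S ^ 13))) := by
  intro S C
  simp only [S, C]
  obtain ⟨U, hU, rfl⟩ : ∃ U : ℝ, 0 ≤ U ∧ T = 1 - U := ⟨1 - T, by linarith, by ring⟩
  set T := 1 - U with hT
  have hpos : (0 : ℝ) ≤ T ^ 3 * (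
    ((4064864 : ℝ) / 869593725) * (T ^ 0 * U ^ 29) +
      ((117881056 : ℝ) / 869593725) * (T ^ 1 * U ^ 28) +
      ((1549716856 : ℝ) / 869593725) * (T ^ 2 * U ^ 27) +
      ((283187110115683 : ℝ) / 19324305000000) * (T ^ 3 * U ^ 26) +
      ((27594916221007 : ℝ) / 318532500000) * (T ^ 4 * U ^ 25) +
      ((9026361285965689 : ℝ) / 22297275000000) * (T ^ 5 * U ^ 24) +
      ((178452552352257863 : ℝ) / 108699215625000) * (T ^ 6 * U ^ 23) +
      ((2752934987072670859 : ℝ) / 434796862500000) * (T ^ 7 * U ^ 22) +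
      ((5272398896030559197 : ℝ) / 217398431250000) * (T ^ 8 * U ^ 21) +
      ((973535854699362467 : ℝ) / 10869921562500) * (T ^ 9 * U ^ 20) +
      ((212697979238362597 : ℝ) / 705839062500) * (T ^ 10 * U ^ 19) +
      ((772715895855163100273 : ℝ) / 869593725000000) * (T ^ 11 * U ^ 18) +
      ((327485096102457877043 : ℝ) / 144932287500000) * (T ^ 12 * U ^ 17) +
      ((4235155486380544217 : ℝ) / 857587500000) * (T ^ 13 * U ^ 16) +
      ((42099726059414102536 : ℝ) / 4529133984375) * (T ^ 14 * U ^ 15) +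
      ((1643515861402340017087 : ℝ) / 108699215625000) * (T ^ 15 * U ^ 14) +
      ((1915518604708564337 : ℝ) / 89834062500) * (T ^ 16 * U ^ 13) +
      ((436987070647203282607 : ℝ) / 16722956250000) * (T ^ 17 * U ^ 12) +
      ((1513996323162199338277 : ℝ) / 54349607812500) * (T ^ 18 * U ^ 11) +
      ((3207711786963965631671 : ℝ) / 124227675000000) * (T ^ 19 * U ^ 10) +
      ((9029597529513292653877 : ℝ) / 434796862500000) * (T ^ 20 * U ^ 9) +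
      ((464844057579374898647 : ℝ) / 32207175000000) * (T ^ 21 * U ^ 8) +
      ((311977681295066518213 : ℝ) / 36233071875000) * (T ^ 22 * U ^ 7) +
      ((1265446994049496898531 : ℝ) / 289864575000000) * (T ^ 23 * U ^ 6) +
      ((161203625082024053351 : ℝ) / 86959372500000) * (T ^ 24 * U ^ 5) +
      ((112158597161835875927 : ℝ) / 173918745000000) * (T ^ 25 * U ^ 4) +
      ((3509906553423312491 : ℝ) / 19763493750000) * (T ^ 26 * U ^ 3) +
      ((378382985226619067 : ℝ) / 10352306250000) * (T ^ 27 * U ^ 2) +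
      ((22804772842495472 : ℝ) / 4529133984375) * (T ^ 28 * U ^ 1) +
      ((48202430181071 : ℝ) / 137246484375) * (T ^ 29 * U ^ 0)) := by positivity
  have hd : (0 : ℝ) < (1 + T ^ 2) ^ 16 := by positivity
  refine nonneg_of_mul_nonneg_left (hpos.trans_eq ?_) hd
  field_simp
  rw [hT]
  ring

/-- The polynomial data for `l = 3`, `k = 20`. -/
noncomputable def data_3_20 : ClosedData 1 10 where
  p := fun C => (
    ((-44647 : ℝ) / 21086208) + ((426281 : ℝ) / 115945830) * C +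
      ((-22967 : ℝ) / 21086208) * C ^ 2 + ((-19577 : ℝ) / 63258624) * C ^ 4 +
      ((-35743 : ℝ) / 105431040) * C ^ 6 + ((4205 : ℝ) / 147603456) * C ^ 8 +
      ((24179 : ℝ) / 189775872) * C ^ 10 + ((573 : ℝ) / 25772032) * C ^ 12 +
      ((1 : ℝ) / 2768896) * C ^ 14)
  dp := fun C => (
    ((426281 : ℝ) / 115945830) + ((-22967 : ℝ) / 10543104) * C +
      ((-19577 : ℝ) / 15814656) * C ^ 3 + ((-35743 : ℝ) / 17571840) * C ^ 5 +
      ((4205 : ℝ) / 18450432) * C ^ 7 + ((120895 : ℝ) / 94887936) * C ^ 9 +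
      ((1719 : ℝ) / 6443008) * C ^ 11 + ((7 : ℝ) / 1384448) * C ^ 13)
  ddp := fun C => (
    ((-22967 : ℝ) / 10543104) + ((-19577 : ℝ) / 5271552) * C ^ 2 +
      ((-35743 : ℝ) / 3514368) * C ^ 4 + ((4205 : ℝ) / 2635776) * C ^ 6 +
      ((120895 : ℝ) / 10543104) * C ^ 8 + ((1719 : ℝ) / 585728) * C ^ 10 +
      ((7 : ℝ) / 106496) * C ^ 12)
  r := fun C => (
    ((-44647 : ℝ) / 21086208) + ((-265077139 : ℝ) / 474914119680) * C +
      ((-20933239 : ℝ) / 237457059840) * C ^ 2 + ((60448061 : ℝ) / 158304706560) * C ^ 3 +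
      ((515161033 : ℝ) / 949828239360) * C ^ 4 + ((33381685 : ℝ) / 47491411968) * C ^ 5 +
      ((2075407 : ℝ) / 3957617664) * C ^ 6 + ((2346869 : ℝ) / 6784487424) * C ^ 7 +
      ((5316709 : ℝ) / 27137949696) * C ^ 8 + ((7691 : ℝ) / 167518208) * C ^ 9 +
      ((1953 : ℝ) / 83759104) * C ^ 10 + ((1 : ℝ) / 1384448) * C ^ 11 +
      ((1 : ℝ) / 2768896) * C ^ 12)
  r' := fun C => (
    ((426281 : ℝ) / 115945830) + ((711498461 : ℝ) / 474914119680) * C +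
      ((711498461 : ℝ) / 474914119680) * C ^ 2 + ((123601151 : ℝ) / 474914119680) * C ^ 3 +
      ((123601151 : ℝ) / 474914119680) * C ^ 4 + ((-84242491 : ℝ) / 47491411968) * C ^ 5 +
      ((-84242491 : ℝ) / 47491411968) * C ^ 6 + ((-10488403 : ℝ) / 6784487424) * C ^ 7 +
      ((-10488403 : ℝ) / 6784487424) * C ^ 8 + ((-45541 : ℝ) / 167518208) * C ^ 9 +
      ((-45541 : ℝ) / 167518208) * C ^ 10 + ((-7 : ℝ) / 1384448) * C ^ 11 +
      ((-7 : ℝ) / 1384448) * C ^ 12)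
  j := fun S => (
    ((-1 : ℝ) / 320) * S ^ 5 + ((1 : ℝ) / 256) * S ^ 7 + ((-5 : ℝ) / 3072) * S ^ 9 +
      ((5 : ℝ) / 22528) * S ^ 11 + ((-1 : ℝ) / 212992) * S ^ 13)
  dj := fun S => (
    ((-1 : ℝ) / 64) * S ^ 4 + ((7 : ℝ) / 256) * S ^ 6 + ((-15 : ℝ) / 1024) * S ^ 8 +
      ((5 : ℝ) / 2048) * S ^ 10 + ((-1 : ℝ) / 16384) * S ^ 12)
  R := fun C => (
    ((17819 : ℝ) / 70287360) * C + ((-93679 : ℝ) / 105431040) * C ^ 3 +
      ((-247397 : ℝ) / 117145600) * C ^ 5 + ((-841 : ℝ) / 24600576) * C ^ 7 +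
      ((145705 : ℝ) / 126517248) * C ^ 9 + ((6519 : ℝ) / 25772032) * C ^ 11 +
      ((27 : ℝ) / 5537792) * C ^ 13)
  dR := fun C => (
    ((17819 : ℝ) / 70287360) + ((-93679 : ℝ) / 35143680) * C ^ 2 +
      ((-247397 : ℝ) / 23429120) * C ^ 4 + ((-841 : ℝ) / 3514368) * C ^ 6 +
      ((145705 : ℝ) / 14057472) * C ^ 8 + ((6519 : ℝ) / 2342912) * C ^ 10 +
      ((27 : ℝ) / 425984) * C ^ 12)
  deriv_p := fun C => (((((((((hasDerivAt_const C ((-44647 : ℝ) / 21086208)).fun_add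
      ((hasDerivAt_id' C).const_mul ((426281 : ℝ) / 115945830))).fun_add
      ((hasDerivAt_pow 2 C).const_mul ((-22967 : ℝ) / 21086208))).fun_add
      ((hasDerivAt_pow 4 C).const_mul ((-19577 : ℝ) / 63258624))).fun_add
      ((hasDerivAt_pow 6 C).const_mul ((-35743 : ℝ) / 105431040))).fun_add
      ((hasDerivAt_pow 8 C).const_mul ((4205 : ℝ) / 147603456))).fun_add
      ((hasDerivAt_pow 10 C).const_mul ((24179 : ℝ) / 189775872))).fun_add
      ((hasDerivAt_pow 12 C).const_mul ((573 : ℝ) / 25772032))).fun_add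
      ((hasDerivAt_pow 14 C).const_mul ((1 : ℝ) / 2768896))).congr_deriv (by simp <;> ring)
  deriv_dp := fun C => ((((((((hasDerivAt_const C ((426281 : ℝ) / 115945830)).fun_add
      ((hasDerivAt_id' C).const_mul ((-22967 : ℝ) / 10543104))).fun_add
      ((hasDerivAt_pow 3 C).const_mul ((-19577 : ℝ) / 15814656))).fun_add
      ((hasDerivAt_pow 5 C).const_mul ((-35743 : ℝ) / 17571840))).fun_add
      ((hasDerivAt_pow 7 C).const_mul ((4205 : ℝ) / 18450432))).fun_add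
      ((hasDerivAt_pow 9 C).const_mul ((120895 : ℝ) / 94887936))).fun_add
      ((hasDerivAt_pow 11 C).const_mul ((1719 : ℝ) / 6443008))).fun_add
      ((hasDerivAt_pow 13 C).const_mul ((7 : ℝ) / 1384448))).congr_deriv (by simp <;> ring)
  deriv_j := fun S => ((((((hasDerivAt_pow 5 S).const_mul ((-1 : ℝ) / 320)).fun_add
      ((hasDerivAt_pow 7 S).const_mul ((1 : ℝ) / 256))).fun_add
      ((hasDerivAt_pow 9 S).const_mul ((-5 : ℝ) / 3072))).fun_add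
      ((hasDerivAt_pow 11 S).const_mul ((5 : ℝ) / 22528))).fun_add
      ((hasDerivAt_pow 13 S).const_mul ((-1 : ℝ) / 212992))).congr_deriv (by simp <;> ring)
  deriv_R := fun C => ((((((((hasDerivAt_id' C).const_mul ((17819 : ℝ) / 70287360)).fun_add
      ((hasDerivAt_pow 3 C).const_mul ((-93679 : ℝ) / 105431040))).fun_add
      ((hasDerivAt_pow 5 C).const_mul ((-247397 : ℝ) / 117145600))).fun_add
      ((hasDerivAt_pow 7 C).const_mul ((-841 : ℝ) / 24600576))).fun_add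
      ((hasDerivAt_pow 9 C).const_mul ((145705 : ℝ) / 126517248))).fun_add
      ((hasDerivAt_pow 11 C).const_mul ((6519 : ℝ) / 25772032))).fun_add
      ((hasDerivAt_pow 13 C).const_mul ((27 : ℝ) / 5537792))).congr_deriv (by simp <;> ring)
  fac := fun C => by ring
  fac' := fun C => by ring
  cont_r := by fun_prop
  cont_r' := by fun_prop
  ode := fun C => by ring
  jd := fun S C h => by
    linear_combination (
    ((-1 : ℝ) / 64) * C * (S ^ 2 * (1 - C ^ 2) ^ 0) +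
      ((-1 : ℝ) / 64) * C * (S ^ 0 * (1 - C ^ 2) ^ 1) +
      ((7 : ℝ) / 256) * C * (S ^ 4 * (1 - C ^ 2) ^ 0) +
      ((7 : ℝ) / 256) * C * (S ^ 2 * (1 - C ^ 2) ^ 1) +
      ((7 : ℝ) / 256) * C * (S ^ 0 * (1 - C ^ 2) ^ 2) +
      ((-15 : ℝ) / 1024) * C * (S ^ 6 * (1 - C ^ 2) ^ 0) +
      ((-15 : ℝ) / 1024) * C * (S ^ 4 * (1 - C ^ 2) ^ 1) +
      ((-15 : ℝ) / 1024) * C * (S ^ 2 * (1 - C ^ 2) ^ 2) +
      ((-15 : ℝ) / 1024) * C * (S ^ 0 * (1 - C ^ 2) ^ 3) +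
      ((5 : ℝ) / 2048) * C * (S ^ 8 * (1 - C ^ 2) ^ 0) +
      ((5 : ℝ) / 2048) * C * (S ^ 6 * (1 - C ^ 2) ^ 1) +
      ((5 : ℝ) / 2048) * C * (S ^ 4 * (1 - C ^ 2) ^ 2) +
      ((5 : ℝ) / 2048) * C * (S ^ 2 * (1 - C ^ 2) ^ 3) +
      ((5 : ℝ) / 2048) * C * (S ^ 0 * (1 - C ^ 2) ^ 4) +
      ((-1 : ℝ) / 16384) * C * (S ^ 10 * (1 - C ^ 2) ^ 0) +
      ((-1 : ℝ) / 16384) * C * (S ^ 8 * (1 - C ^ 2) ^ 1) +
      ((-1 : ℝ) / 16384) * C * (S ^ 6 * (1 - C ^ 2) ^ 2) +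
      ((-1 : ℝ) / 16384) * C * (S ^ 4 * (1 - C ^ 2) ^ 3) +
      ((-1 : ℝ) / 16384) * C * (S ^ 2 * (1 - C ^ 2) ^ 4) +
      ((-1 : ℝ) / 16384) * C * (S ^ 0 * (1 - C ^ 2) ^ 5)) * h
  Rd := fun S C h => by
    linear_combination (
    ((1 : ℝ) / 320) * (S ^ 3 * (1 - C ^ 2) ^ 0) + ((1 : ℝ) / 320) * (S ^ 1 * (1 - C ^ 2) ^ 1) +
      ((-1 : ℝ) / 256) * (S ^ 5 * (1 - C ^ 2) ^ 0) +
      ((-1 : ℝ) / 256) * (S ^ 3 * (1 - C ^ 2) ^ 1) +
      ((-1 : ℝ) / 256) * (S ^ 1 * (1 - C ^ 2) ^ 2) +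
      ((5 : ℝ) / 3072) * (S ^ 7 * (1 - C ^ 2) ^ 0) +
      ((5 : ℝ) / 3072) * (S ^ 5 * (1 - C ^ 2) ^ 1) +
      ((5 : ℝ) / 3072) * (S ^ 3 * (1 - C ^ 2) ^ 2) +
      ((5 : ℝ) / 3072) * (S ^ 1 * (1 - C ^ 2) ^ 3) +
      ((-5 : ℝ) / 22528) * (S ^ 9 * (1 - C ^ 2) ^ 0) +
      ((-5 : ℝ) / 22528) * (S ^ 7 * (1 - C ^ 2) ^ 1) +
      ((-5 : ℝ) / 22528) * (S ^ 5 * (1 - C ^ 2) ^ 2) +
      ((-5 : ℝ) / 22528) * (S ^ 3 * (1 - C ^ 2) ^ 3) +
      ((-5 : ℝ) / 22528) * (S ^ 1 * (1 - C ^ 2) ^ 4) +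
      ((1 : ℝ) / 212992) * (S ^ 11 * (1 - C ^ 2) ^ 0) +
      ((1 : ℝ) / 212992) * (S ^ 9 * (1 - C ^ 2) ^ 1) +
      ((1 : ℝ) / 212992) * (S ^ 7 * (1 - C ^ 2) ^ 2) +
      ((1 : ℝ) / 212992) * (S ^ 5 * (1 - C ^ 2) ^ 3) +
      ((1 : ℝ) / 212992) * (S ^ 3 * (1 - C ^ 2) ^ 4) +
      ((1 : ℝ) / 212992) * (S ^ 1 * (1 - C ^ 2) ^ 5) + (-1 : ℝ) * ((((1 - C) / 2) ^ 10 + ((1 +
      C) / 2) ^ 10) / 16) * (S ^ 1 * (1 - C ^ 2) ^ 0)) * h
  d_nonneg := by norm_num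
  bound := fun S C hS hC h => by
    have hC1 : 0 < 1 + C := by linarith
    have hT0 : 0 ≤ S / (1 + C) := by positivity
    have hT1 : S / (1 + C) ≤ 1 := by rw [div_le_one hC1]; nlinarith
    have eS : 2 * (S / (1 + C)) / (1 + (S / (1 + C)) ^ 2) = S := by
      field_simp; linear_combination -h
    have eC : (1 - (S / (1 + C)) ^ 2) / (1 + (S / (1 + C)) ^ 2) = C := by
      field_simp; linear_combination (-(1 + C)) * h
    have a := bound_3_20_0 _ hT0 hT1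
    have b := bound_3_20_1 _ hT0 hT1
    simp only [eS, eC] at a b
    have lo : (15707963 : ℝ) / 5000000 ≤ π := by linarith [pi_gt_d20]
    have hi : π ≤ (31415927 : ℝ) / 10000000 := by linarith [pi_lt_d20]
    have key := affine_nonneg a b (by norm_num) lo (by linarith)
    norm_num at key ⊢
    linarith

end Vale.Agent.P231
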