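import Vale.Agent.P231.Cert.Closed

/-!
The certificate for `l = 3`, `k = 4`.
-/

namespace Vale.Agent.P231

open Real

/-- The bound at the lower endpoint of the enclosure of `π`. -/
theorem bound_3_4_0 (T : ℝ) (h0 : 0 ≤ T) (h1 : T ≤ 1) :
    let S := 2 * T / (1 + T ^ 2)
    let C := (1 - T ^ 2) / (1 + T ^ 2)
    0 ≤ ((7 : ℝ) / 150) * S ^ 3 - ((2 + S ^ 2) * (((8 : ℝ) / 225) * (S - C * S - C * S ^ 3 / 6))
      + ((15707963 : ℝ) / 5000000) * ((2 + S ^ 2) * (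
      ((-7 : ℝ) / 960) + ((4 : ℝ) / 225) * C + ((-11 : ℝ) / 960) * C ^ 2 +
        ((1 : ℝ) / 2880) * C ^ 4 + ((1 : ℝ) / 1600) * C ^ 6) + S ^ 3 * (
      ((-1 : ℝ) / 320) * S ^ 5))) := by
  intro S C
  simp only [S, C]
  obtain ⟨U, hU, rfl⟩ : ∃ U : ℝ, 0 ≤ U ∧ T = 1 - U := ⟨1 - T, by linarith, by ring⟩
  set T := 1 - U with hT
  have hpos : (0 : ℝ) ≤ T ^ 3 * (
    ((124 : ℝ) / 675) * (T ^ 0 * U ^ 13) + ((1612 : ℝ) / 675) * (T ^ 1 * U ^ 12) +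
      ((9716 : ℝ) / 675) * (T ^ 2 * U ^ 11) + ((3641923889 : ℝ) / 67500000) * (T ^ 3 * U ^ 10) +
      ((941523889 : ℝ) / 6750000) * (T ^ 4 * U ^ 9) +
      ((9868285991 : ℝ) / 37500000) * (T ^ 5 * U ^ 8) +
      ((15975990569 : ℝ) / 42187500) * (T ^ 6 * U ^ 7) +
      ((731584146323 : ℝ) / 1687500000) * (T ^ 7 * U ^ 6) +
      ((342995747249 : ℝ) / 843750000) * (T ^ 8 * U ^ 5) +
      ((526177093309 : ℝ) / 1687500000) * (T ^ 9 * U ^ 4) +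
      ((79665063359 : ℝ) / 421875000) * (T ^ 10 * U ^ 3) +
      ((2409653911 : ℝ) / 28125000) * (T ^ 11 * U ^ 2) +
      ((473451116 : ℝ) / 17578125) * (T ^ 12 * U ^ 1) +
      ((3707963 : ℝ) / 781250) * (T ^ 13 * U ^ 0)) := by positivity
  have hd : (0 : ℝ) < (1 + T ^ 2) ^ 8 := by positivity
  refine nonneg_of_mul_nonneg_left (hpos.trans_eq ?_) hd
  field_simp
  rw [hT]
  ring

/-- The bound at the upper endpoint of the enclosure of `π`. -/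
theorem bound_3_4_1 (T : ℝ) (h0 : 0 ≤ T) (h1 : T ≤ 1) :
    let S := 2 * T / (1 + T ^ 2)
    let C := (1 - T ^ 2) / (1 + T ^ 2)
    0 ≤ ((7 : ℝ) / 150) * S ^ 3 - ((2 + S ^ 2) * (((8 : ℝ) / 225) * (S - C * S - C * S ^ 3 / 6))
      + ((31415927 : ℝ) / 10000000) * ((2 + S ^ 2) * (
      ((-7 : ℝ) / 960) + ((4 : ℝ) / 225) * C + ((-11 : ℝ) / 960) * C ^ 2 +
        ((1 : ℝ) / 2880) * C ^ 4 + ((1 : ℝ) / 1600) * C ^ 6) + S ^ 3 * (
      ((-1 : ℝ) / 320) * S ^ 5))) := by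
  intro S C
  simp only [S, C]
  obtain ⟨U, hU, rfl⟩ : ∃ U : ℝ, 0 ≤ U ∧ T = 1 - U := ⟨1 - T, by linarith, by ring⟩
  set T := 1 - U with hT
  have hpos : (0 : ℝ) ≤ T ^ 3 * (
    ((124 : ℝ) / 675) * (T ^ 0 * U ^ 13) + ((1612 : ℝ) / 675) * (T ^ 1 * U ^ 12) +
      ((9716 : ℝ) / 675) * (T ^ 2 * U ^ 11) + ((7283847781 : ℝ) / 135000000) * (T ^ 3 * U ^ 10) +
      ((1883047781 : ℝ) / 13500000) * (T ^ 4 * U ^ 9) +
      ((59209716217 : ℝ) / 225000000) * (T ^ 5 * U ^ 8) +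
      ((31951981501 : ℝ) / 84375000) * (T ^ 6 * U ^ 7) +
      ((1463168328367 : ℝ) / 3375000000) * (T ^ 7 * U ^ 6) +
      ((685991525221 : ℝ) / 1687500000) * (T ^ 8 * U ^ 5) +
      ((1052354260961 : ℝ) / 3375000000) * (T ^ 9 * U ^ 4) +
      ((159330142411 : ℝ) / 843750000) * (T ^ 10 * U ^ 3) +
      ((4819308419 : ℝ) / 56250000) * (T ^ 11 * U ^ 2) +
      ((473451182 : ℝ) / 17578125) * (T ^ 12 * U ^ 1) +
      ((7415927 : ℝ) / 1562500) * (T ^ 13 * U ^ 0)) := by positivity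
  have hd : (0 : ℝ) < (1 + T ^ 2) ^ 8 := by positivity
  refine nonneg_of_mul_nonneg_left (hpos.trans_eq ?_) hd
  field_simp
  rw [hT]
  ring

/-- The polynomial data for `l = 3`, `k = 4`. -/
noncomputable def data_3_4 : ClosedData 1 2 where
  p := fun C => (
    ((-7 : ℝ) / 960) + ((4 : ℝ) / 225) * C + ((-11 : ℝ) / 960) * C ^ 2 +
      ((1 : ℝ) / 2880) * C ^ 4 + ((1 : ℝ) / 1600) * C ^ 6)
  dp := fun C => (
    ((4 : ℝ) / 225) + ((-11 : ℝ) / 480) * C + ((1 : ℝ) / 720) * C ^ 3 + ((3 : ℝ) / 800) * C ^ 5)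
  ddp := fun C => (
    ((-11 : ℝ) / 480) + ((1 : ℝ) / 240) * C ^ 2 + ((3 : ℝ) / 160) * C ^ 4)
  r := fun C => (
    ((-7 : ℝ) / 960) + ((23 : ℝ) / 7200) * C + ((1 : ℝ) / 450) * C ^ 2 + ((1 : ℝ) / 800) * C ^ 3 +
      ((1 : ℝ) / 1600) * C ^ 4)
  r' := fun C => (
    ((4 : ℝ) / 225) + ((-37 : ℝ) / 7200) * C + ((-37 : ℝ) / 7200) * C ^ 2 +
      ((-3 : ℝ) / 800) * C ^ 3 + ((-3 : ℝ) / 800) * C ^ 4)
  j := fun S => (
    ((-1 : ℝ) / 320) * S ^ 5)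
  dj := fun S => (
    ((-1 : ℝ) / 64) * S ^ 4)
  R := fun C => (
    ((-9 : ℝ) / 640) * C + ((-1 : ℝ) / 960) * C ^ 3 + ((11 : ℝ) / 3200) * C ^ 5)
  dR := fun C => (
    ((-9 : ℝ) / 640) + ((-1 : ℝ) / 320) * C ^ 2 + ((11 : ℝ) / 640) * C ^ 4)
  deriv_p := fun C => (((((hasDerivAt_const C ((-7 : ℝ) / 960)).fun_add
      ((hasDerivAt_id' C).const_mul ((4 : ℝ) / 225))).fun_add
      ((hasDerivAt_pow 2 C).const_mul ((-11 : ℝ) / 960))).fun_add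
      ((hasDerivAt_pow 4 C).const_mul ((1 : ℝ) / 2880))).fun_add
      ((hasDerivAt_pow 6 C).const_mul ((1 : ℝ) / 1600))).congr_deriv (by simp <;> ring)
  deriv_dp := fun C => ((((hasDerivAt_const C ((4 : ℝ) / 225)).fun_add
      ((hasDerivAt_id' C).const_mul ((-11 : ℝ) / 480))).fun_add
      ((hasDerivAt_pow 3 C).const_mul ((1 : ℝ) / 720))).fun_add
      ((hasDerivAt_pow 5 C).const_mul ((3 : ℝ) / 800))).congr_deriv (by simp <;> ring)
  deriv_j := fun S => ((hasDerivAt_pow 5 S).const_mul ((-1 : ℝ) / 320)).congr_deriv (by simp <;> ring)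
  deriv_R := fun C => ((((hasDerivAt_id' C).const_mul ((-9 : ℝ) / 640)).fun_add
      ((hasDerivAt_pow 3 C).const_mul ((-1 : ℝ) / 960))).fun_add
      ((hasDerivAt_pow 5 C).const_mul ((11 : ℝ) / 3200))).congr_deriv (by simp <;> ring)
  fac := fun C => by ring
  fac' := fun C => by ring
  cont_r := by fun_prop
  cont_r' := by fun_prop
  ode := fun C => by ring
  jd := fun S C h => by
    linear_combination (
    ((-1 : ℝ) / 64) * C * (S ^ 2 * (1 - C ^ 2) ^ 0) +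
      ((-1 : ℝ) / 64) * C * (S ^ 0 * (1 - C ^ 2) ^ 1)) * h
  Rd := fun S C h => by
    linear_combination (
    ((1 : ℝ) / 320) * (S ^ 3 * (1 - C ^ 2) ^ 0) + ((1 : ℝ) / 320) * (S ^ 1 * (1 - C ^ 2) ^ 1) +
      (-1 : ℝ) * ((((1 - C) / 2) ^ 2 + ((1 + C) / 2) ^ 2) / 16) * (S ^ 1 * (1 - C ^ 2) ^ 0)) * h
  d_nonneg := by norm_num
  bound := fun S C hS hC h => by
    have hC1 : 0 < 1 + C := by linarith
    have hT0 : 0 ≤ S / (1 + C) := by positivity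
    have hT1 : S / (1 + C) ≤ 1 := by rw [div_le_one hC1]; nlinarith
    have eS : 2 * (S / (1 + C)) / (1 + (S / (1 + C)) ^ 2) = S := by
      field_simp; linear_combination -h
    have eC : (1 - (S / (1 + C)) ^ 2) / (1 + (S / (1 + C)) ^ 2) = C := by
      field_simp; linear_combination (-(1 + C)) * h
    have a := bound_3_4_0 _ hT0 hT1
    have b := bound_3_4_1 _ hT0 hT1
    simp only [eS, eC] at a b
    have lo : (15707963 : ℝ) / 5000000 ≤ π := by linarith [pi_gt_d20]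
    have hi : π ≤ (31415927 : ℝ) / 10000000 := by linarith [pi_lt_d20]
    have key := affine_nonneg a b (by norm_num) lo (by linarith)
    norm_num at key ⊢
    linarith

end Vale.Agent.P231
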