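import Vale.Agent.P231.Cert.Closed

/-!
The certificate for `l = 3`, `k = 8`.
-/

namespace Vale.Agent.P231

open Real

/-- The bound at the lower endpoint of the enclosure of `π`. -/
theorem bound_3_8_0 (T : ℝ) (h0 : 0 ≤ T) (h1 : T ≤ 1) :
    let S := 2 * T / (1 + T ^ 2)
    let C := (1 - T ^ 2) / (1 + T ^ 2)
    0 ≤ ((617 : ℝ) / 29400) * S ^ 3 - ((2 + S ^ 2) * (((433 : ℝ) / 22050) * (S - C * S - C * S ^ 3 / 6))
      + ((15707963 : ℝ) / 5000000) * ((2 + S ^ 2) * (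
      ((-127 : ℝ) / 26880) + ((433 : ℝ) / 44100) * C + ((-29 : ℝ) / 6720) * C ^ 2 +
        ((-67 : ℝ) / 40320) * C ^ 4 + ((9 : ℝ) / 11200) * C ^ 6 + ((1 : ℝ) / 12544) * C ^ 8) + S ^ 3 * (
      ((-1 : ℝ) / 320) * S ^ 5 + ((1 : ℝ) / 1792) * S ^ 7))) := by
  intro S C
  simp only [S, C]
  obtain ⟨U, hU, rfl⟩ : ∃ U : ℝ, 0 ≤ U ∧ T = 1 - U := ⟨1 - T, by linarith, by ring⟩
  set T := 1 - U with hT
  have hpos : (0 : ℝ) ≤ T ^ 3 * (
    ((2089 : ℝ) / 33075) * (T ^ 0 * U ^ 17) + ((35513 : ℝ) / 33075) * (T ^ 1 * U ^ 16) +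
      ((283139 : ℝ) / 33075) * (T ^ 2 * U ^ 15) +
      ((142913570561 : ℝ) / 3307500000) * (T ^ 3 * U ^ 14) +
      ((36632270561 : ℝ) / 236250000) * (T ^ 4 * U ^ 13) +
      ((1996933496899 : ℝ) / 4725000000) * (T ^ 5 * U ^ 12) +
      ((7617272013859 : ℝ) / 8268750000) * (T ^ 6 * U ^ 11) +
      ((19904543215847 : ℝ) / 11812500000) * (T ^ 7 * U ^ 10) +
      ((3179499774797 : ℝ) / 1181250000) * (T ^ 8 * U ^ 9) +
      ((63124345230539 : ℝ) / 16537500000) * (T ^ 9 * U ^ 8) +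
      ((9795233863181 : ℝ) / 2067187500) * (T ^ 10 * U ^ 7) +
      ((102949496725349 : ℝ) / 20671875000) * (T ^ 11 * U ^ 6) +
      ((44115026287373 : ℝ) / 10335937500) * (T ^ 12 * U ^ 5) +
      ((237777273658289 : ℝ) / 82687500000) * (T ^ 13 * U ^ 4) +
      ((4321710729167 : ℝ) / 2953125000) * (T ^ 14 * U ^ 3) +
      ((1835216407301 : ℝ) / 3445312500) * (T ^ 15 * U ^ 2) +
      ((433508826383 : ℝ) / 3445312500) * (T ^ 16 * U ^ 1) +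
      ((276001669 : ℝ) / 18375000) * (T ^ 17 * U ^ 0)) := by positivity
  have hd : (0 : ℝ) < (1 + T ^ 2) ^ 10 := by positivity
  refine nonneg_of_mul_nonneg_left (hpos.trans_eq ?_) hd
  field_simp
  rw [hT]
  ring

/-- The bound at the upper endpoint of the enclosure of `π`. -/
theorem bound_3_8_1 (T : ℝ) (h0 : 0 ≤ T) (h1 : T ≤ 1) :
    let S := 2 * T / (1 + T ^ 2)
    let C := (1 - T ^ 2) / (1 + T ^ 2)
    0 ≤ ((617 : ℝ) / 29400) * S ^ 3 - ((2 + S ^ 2) * (((433 : ℝ) / 22050) * (S - C * S - C * S ^ 3 / 6))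
      + ((31415927 : ℝ) / 10000000) * ((2 + S ^ 2) * (
      ((-127 : ℝ) / 26880) + ((433 : ℝ) / 44100) * C + ((-29 : ℝ) / 6720) * C ^ 2 +
        ((-67 : ℝ) / 40320) * C ^ 4 + ((9 : ℝ) / 11200) * C ^ 6 + ((1 : ℝ) / 12544) * C ^ 8) + S ^ 3 * (
      ((-1 : ℝ) / 320) * S ^ 5 + ((1 : ℝ) / 1792) * S ^ 7))) := by
  intro S C
  simp only [S, C]
  obtain ⟨U, hU, rfl⟩ : ∃ U : ℝ, 0 ≤ U ∧ T = 1 - U := ⟨1 - T, by linarith, by ring⟩
  set T := 1 - U with hT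
  have hpos : (0 : ℝ) ≤ T ^ 3 * (
    ((2089 : ℝ) / 33075) * (T ^ 0 * U ^ 17) + ((35513 : ℝ) / 33075) * (T ^ 1 * U ^ 16) +
      ((283139 : ℝ) / 33075) * (T ^ 2 * U ^ 15) +
      ((285827141269 : ℝ) / 6615000000) * (T ^ 3 * U ^ 14) +
      ((73264541269 : ℝ) / 472500000) * (T ^ 4 * U ^ 13) +
      ((3993867015071 : ℝ) / 9450000000) * (T ^ 5 * U ^ 12) +
      ((15234544206911 : ℝ) / 16537500000) * (T ^ 6 * U ^ 11) +
      ((39809087324563 : ℝ) / 23625000000) * (T ^ 7 * U ^ 10) +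
      ((6358999784113 : ℝ) / 2362500000) * (T ^ 8 * U ^ 9) +
      ((126248697090631 : ℝ) / 33075000000) * (T ^ 9 * U ^ 8) +
      ((19590469027249 : ℝ) / 4134375000) * (T ^ 10 * U ^ 7) +
      ((205899009390121 : ℝ) / 41343750000) * (T ^ 11 * U ^ 6) +
      ((1800613472833 : ℝ) / 421875000) * (T ^ 12 * U ^ 5) +
      ((475554591745381 : ℝ) / 165375000000) * (T ^ 13 * U ^ 4) +
      ((60503956275901 : ℝ) / 41343750000) * (T ^ 14 * U ^ 3) +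
      ((3670433206729 : ℝ) / 6890625000) * (T ^ 15 * U ^ 2) +
      ((867017750107 : ℝ) / 6890625000) * (T ^ 16 * U ^ 1) +
      ((552003401 : ℝ) / 36750000) * (T ^ 17 * U ^ 0)) := by positivity
  have hd : (0 : ℝ) < (1 + T ^ 2) ^ 10 := by positivity
  refine nonneg_of_mul_nonneg_left (hpos.trans_eq ?_) hd
  field_simp
  rw [hT]
  ring

/-- The polynomial data for `l = 3`, `k = 8`. -/
noncomputable def data_3_8 : ClosedData 1 4 where
  p := fun C => (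
    ((-127 : ℝ) / 26880) + ((433 : ℝ) / 44100) * C + ((-29 : ℝ) / 6720) * C ^ 2 +
      ((-67 : ℝ) / 40320) * C ^ 4 + ((9 : ℝ) / 11200) * C ^ 6 + ((1 : ℝ) / 12544) * C ^ 8)
  dp := fun C => (
    ((433 : ℝ) / 44100) + ((-29 : ℝ) / 3360) * C + ((-67 : ℝ) / 10080) * C ^ 3 +
      ((27 : ℝ) / 5600) * C ^ 5 + ((1 : ℝ) / 1568) * C ^ 7)
  ddp := fun C => (
    ((-29 : ℝ) / 3360) + ((-67 : ℝ) / 3360) * C ^ 2 + ((27 : ℝ) / 1120) * C ^ 4 +
      ((1 : ℝ) / 224) * C ^ 6)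
  r := fun C => (
    ((-127 : ℝ) / 26880) + ((521 : ℝ) / 1411200) * C + ((3239 : ℝ) / 2822400) * C ^ 2 +
      ((151 : ℝ) / 78400) * C ^ 3 + ((327 : ℝ) / 313600) * C ^ 4 + ((1 : ℝ) / 6272) * C ^ 5 +
      ((1 : ℝ) / 12544) * C ^ 6)
  r' := fun C => (
    ((433 : ℝ) / 44100) + ((419 : ℝ) / 352800) * C + ((419 : ℝ) / 352800) * C ^ 2 +
      ((-107 : ℝ) / 19600) * C ^ 3 + ((-107 : ℝ) / 19600) * C ^ 4 + ((-1 : ℝ) / 1568) * C ^ 5 +
      ((-1 : ℝ) / 1568) * C ^ 6)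
  j := fun S => (
    ((-1 : ℝ) / 320) * S ^ 5 + ((1 : ℝ) / 1792) * S ^ 7)
  dj := fun S => (
    ((-1 : ℝ) / 64) * S ^ 4 + ((1 : ℝ) / 256) * S ^ 6)
  R := fun C => (
    ((-47 : ℝ) / 17920) * C + ((-391 : ℝ) / 53760) * C ^ 3 + ((363 : ℝ) / 89600) * C ^ 5 +
      ((15 : ℝ) / 25088) * C ^ 7)
  dR := fun C => (
    ((-47 : ℝ) / 17920) + ((-391 : ℝ) / 17920) * C ^ 2 + ((363 : ℝ) / 17920) * C ^ 4 +
      ((15 : ℝ) / 3584) * C ^ 6)
  deriv_p := fun C => ((((((hasDerivAt_const C ((-127 : ℝ) / 26880)).fun_add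
      ((hasDerivAt_id' C).const_mul ((433 : ℝ) / 44100))).fun_add
      ((hasDerivAt_pow 2 C).const_mul ((-29 : ℝ) / 6720))).fun_add
      ((hasDerivAt_pow 4 C).const_mul ((-67 : ℝ) / 40320))).fun_add
      ((hasDerivAt_pow 6 C).const_mul ((9 : ℝ) / 11200))).fun_add
      ((hasDerivAt_pow 8 C).const_mul ((1 : ℝ) / 12544))).congr_deriv (by simp <;> ring)
  deriv_dp := fun C => (((((hasDerivAt_const C ((433 : ℝ) / 44100)).fun_add
      ((hasDerivAt_id' C).const_mul ((-29 : ℝ) / 3360))).fun_add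
      ((hasDerivAt_pow 3 C).const_mul ((-67 : ℝ) / 10080))).fun_add
      ((hasDerivAt_pow 5 C).const_mul ((27 : ℝ) / 5600))).fun_add
      ((hasDerivAt_pow 7 C).const_mul ((1 : ℝ) / 1568))).congr_deriv (by simp <;> ring)
  deriv_j := fun S => (((hasDerivAt_pow 5 S).const_mul ((-1 : ℝ) / 320)).fun_add
      ((hasDerivAt_pow 7 S).const_mul ((1 : ℝ) / 1792))).congr_deriv (by simp <;> ring)
  deriv_R := fun C => (((((hasDerivAt_id' C).const_mul ((-47 : ℝ) / 17920)).fun_add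
      ((hasDerivAt_pow 3 C).const_mul ((-391 : ℝ) / 53760))).fun_add
      ((hasDerivAt_pow 5 C).const_mul ((363 : ℝ) / 89600))).fun_add
      ((hasDerivAt_pow 7 C).const_mul ((15 : ℝ) / 25088))).congr_deriv (by simp <;> ring)
  fac := fun C => by ring
  fac' := fun C => by ring
  cont_r := by fun_prop
  cont_r' := by fun_prop
  ode := fun C => by ring
  jd := fun S C h => by
    linear_combination (
    ((-1 : ℝ) / 64) * C * (S ^ 2 * (1 - C ^ 2) ^ 0) +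
      ((-1 : ℝ) / 64) * C * (S ^ 0 * (1 - C ^ 2) ^ 1) +
      ((1 : ℝ) / 256) * C * (S ^ 4 * (1 - C ^ 2) ^ 0) +
      ((1 : ℝ) / 256) * C * (S ^ 2 * (1 - C ^ 2) ^ 1) +
      ((1 : ℝ) / 256) * C * (S ^ 0 * (1 - C ^ 2) ^ 2)) * h
  Rd := fun S C h => by
    linear_combination (
    ((1 : ℝ) / 320) * (S ^ 3 * (1 - C ^ 2) ^ 0) + ((1 : ℝ) / 320) * (S ^ 1 * (1 - C ^ 2) ^ 1) +
      ((-1 : ℝ) / 1792) * (S ^ 5 * (1 - C ^ 2) ^ 0) +
      ((-1 : ℝ) / 1792) * (S ^ 3 * (1 - C ^ 2) ^ 1) +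
      ((-1 : ℝ) / 1792) * (S ^ 1 * (1 - C ^ 2) ^ 2) + (-1 : ℝ) * ((((1 - C) / 2) ^ 4 + ((1 +
      C) / 2) ^ 4) / 16) * (S ^ 1 * (1 - C ^ 2) ^ 0)) * h
  d_nonneg := by norm_num
  bound := fun S C hS hC h => by
    have hC1 : 0 < 1 + C := by linarith
    have hT0 : 0 ≤ S / (1 + C) := by positivity
    have hT1 : S / (1 + C) ≤ 1 := by rw [div_le_one hC1]; nlinarith
    have eS : 2 * (S / (1 + C)) / (1 + (S / (1 + C)) ^ 2) = S := by
      field_simp; linear_combination -h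
    have eC : (1 - (S / (1 + C)) ^ 2) / (1 + (S / (1 + C)) ^ 2) = C := by
      field_simp; linear_combination (-(1 + C)) * h
    have a := bound_3_8_0 _ hT0 hT1
    have b := bound_3_8_1 _ hT0 hT1
    simp only [eS, eC] at a b
    have lo : (15707963 : ℝ) / 5000000 ≤ π := by linarith [pi_gt_d20]
    have hi : π ≤ (31415927 : ℝ) / 10000000 := by linarith [pi_lt_d20]
    have key := affine_nonneg a b (by norm_num) lo (by linarith)
    norm_num at key ⊢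
    linarith

end Vale.Agent.P231
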