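import Vale.Agent.P231.Cert.Closed

/-!
The certificate for `l = 7`, `k = 8`.
-/

namespace Vale.Agent.P231

open Real

/-- The bound at the lower endpoint of the enclosure of `π`. -/
theorem bound_7_8_0 (T : ℝ) (h0 : 0 ≤ T) (h1 : T ≤ 1) :
    let S := 2 * T / (1 + T ^ 2)
    let C := (1 - T ^ 2) / (1 + T ^ 2)
    0 ≤ ((941 : ℝ) / 1372140) * S ^ 3 - ((2 + S ^ 2) * (((1138 : ℝ) / 2401245) * (S - C * S - C * S ^ 3 / 6))
      + ((15707963 : ℝ) / 5000000) * ((2 + S ^ 2) * (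
      ((-239 : ℝ) / 2838528) + ((569 : ℝ) / 2401245) * C + ((-233 : ℝ) / 1419264) * C ^ 2 +
        ((-463 : ℝ) / 8515584) * C ^ 4 + ((433 : ℝ) / 3548160) * C ^ 6 +
        ((-1343 : ℝ) / 19869696) * C ^ 8 + ((17 : ℝ) / 1824768) * C ^ 10 +
        ((1 : ℝ) / 495616) * C ^ 12) + S ^ 3 * (
      ((-1 : ℝ) / 9216) * S ^ 9 + ((1 : ℝ) / 45056) * S ^ 11))) := by
  intro S C
  simp only [S, C]
  obtain ⟨U, hU, rfl⟩ : ∃ U : ℝ, 0 ≤ U ∧ T = 1 - U := ⟨1 - T, by linarith, by ring⟩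
  set T := 1 - U with hT
  have hpos : (0 : ℝ) ≤ T ^ 3 * (
    ((21314 : ℝ) / 7203735) * (T ^ 0 * U ^ 25) + ((106570 : ℝ) / 1440747) * (T ^ 1 * U ^ 24) +
      ((6546718 : ℝ) / 7203735) * (T ^ 2 * U ^ 23) + ((2501434 : ℝ) / 343035) * (T ^ 3 * U ^ 22) +
      ((28043648 : ℝ) / 654885) * (T ^ 4 * U ^ 21) + ((18288476 : ℝ) / 93555) * (T ^ 5 * U ^ 20) +
      ((12793240 : ℝ) / 17787) * (T ^ 6 * U ^ 19) +
      ((5615118801236089 : ℝ) / 2572762500000) * (T ^ 7 * U ^ 18) +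
      ((49918265857873607 : ℝ) / 9004668750000) * (T ^ 8 * U ^ 17) +
      ((35707232848999631 : ℝ) / 3001556250000) * (T ^ 9 * U ^ 16) +
      ((348732320020432 : ℝ) / 16079765625) * (T ^ 10 * U ^ 15) +
      ((1213990362241289 : ℝ) / 36018675000) * (T ^ 11 * U ^ 14) +
      ((14409492781826509 : ℝ) / 321595312500) * (T ^ 12 * U ^ 13) +
      ((61587831570327779 : ℝ) / 1200622500000) * (T ^ 13 * U ^ 12) +
      ((231083423923712111 : ℝ) / 4502334375000) * (T ^ 14 * U ^ 11) +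
      ((3020874523538309 : ℝ) / 65488500000) * (T ^ 15 * U ^ 10) +
      ((2578007663218649 : ℝ) / 66701250000) * (T ^ 16 * U ^ 9) +
      ((69767077124838479 : ℝ) / 2251167187500) * (T ^ 17 * U ^ 8) +
      ((26453122316297027 : ℝ) / 1125583593750) * (T ^ 18 * U ^ 7) +
      ((48192671765356621 : ℝ) / 3001556250000) * (T ^ 19 * U ^ 6) +
      ((1677647699092877 : ℝ) / 180093375000) * (T ^ 20 * U ^ 5) +
      ((15671052936464803 : ℝ) / 3601867500000) * (T ^ 21 * U ^ 4) +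
      ((6998656929427459 : ℝ) / 4502334375000) * (T ^ 22 * U ^ 3) +
      ((299260388791081 : ℝ) / 750389062500) * (T ^ 23 * U ^ 2) +
      ((16506282801527 : ℝ) / 250129687500) * (T ^ 24 * U ^ 1) +
      ((1616654430679 : ℝ) / 300155625000) * (T ^ 25 * U ^ 0)) := by positivity
  have hd : (0 : ℝ) < (1 + T ^ 2) ^ 14 := by positivity
  refine nonneg_of_mul_nonneg_left (hpos.trans_eq ?_) hd
  field_simp
  rw [hT]
  ring

/-- The bound at the upper endpoint of the enclosure of `π`. -/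
theorem bound_7_8_1 (T : ℝ) (h0 : 0 ≤ T) (h1 : T ≤ 1) :
    let S := 2 * T / (1 + T ^ 2)
    let C := (1 - T ^ 2) / (1 + T ^ 2)
    0 ≤ ((941 : ℝ) / 1372140) * S ^ 3 - ((2 + S ^ 2) * (((1138 : ℝ) / 2401245) * (S - C * S - C * S ^ 3 / 6))
      + ((31415927 : ℝ) / 10000000) * ((2 + S ^ 2) * (
      ((-239 : ℝ) / 2838528) + ((569 : ℝ) / 2401245) * C + ((-233 : ℝ) / 1419264) * C ^ 2 +
        ((-463 : ℝ) / 8515584) * C ^ 4 + ((433 : ℝ) / 3548160) * C ^ 6 +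
        ((-1343 : ℝ) / 19869696) * C ^ 8 + ((17 : ℝ) / 1824768) * C ^ 10 +
        ((1 : ℝ) / 495616) * C ^ 12) + S ^ 3 * (
      ((-1 : ℝ) / 9216) * S ^ 9 + ((1 : ℝ) / 45056) * S ^ 11))) := by
  intro S C
  simp only [S, C]
  obtain ⟨U, hU, rfl⟩ : ∃ U : ℝ, 0 ≤ U ∧ T = 1 - U := ⟨1 - T, by linarith, by ring⟩
  set T := 1 - U with hT
  have hpos : (0 : ℝ) ≤ T ^ 3 * (
    ((21314 : ℝ) / 7203735) * (T ^ 0 * U ^ 25) + ((106570 : ℝ) / 1440747) * (T ^ 1 * U ^ 24) +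
      ((6546718 : ℝ) / 7203735) * (T ^ 2 * U ^ 23) + ((2501434 : ℝ) / 343035) * (T ^ 3 * U ^ 22) +
      ((28043648 : ℝ) / 654885) * (T ^ 4 * U ^ 21) + ((18288476 : ℝ) / 93555) * (T ^ 5 * U ^ 20) +
      ((12793240 : ℝ) / 17787) * (T ^ 6 * U ^ 19) +
      ((11230237602501581 : ℝ) / 5145525000000) * (T ^ 7 * U ^ 18) +
      ((99836531717599603 : ℝ) / 18009337500000) * (T ^ 8 * U ^ 17) +
      ((71414465703734299 : ℝ) / 6003112500000) * (T ^ 9 * U ^ 16) +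
      ((49818902873752 : ℝ) / 2297109375) * (T ^ 10 * U ^ 15) +
      ((2427980726452381 : ℝ) / 72037350000) * (T ^ 11 * U ^ 14) +
      ((28818985625523761 : ℝ) / 643190625000) * (T ^ 12 * U ^ 13) +
      ((123175663778710591 : ℝ) / 2401245000000) * (T ^ 13 * U ^ 12) +
      ((462166853119996219 : ℝ) / 9004668750000) * (T ^ 14 * U ^ 11) +
      ((6041749183365961 : ℝ) / 130977000000) * (T ^ 15 * U ^ 10) +
      ((46404139740762389 : ℝ) / 1200622500000) * (T ^ 16 * U ^ 9) +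
      ((139534162196020891 : ℝ) / 4502334375000) * (T ^ 17 * U ^ 8) +
      ((7558035490396969 : ℝ) / 321595312500) * (T ^ 18 * U ^ 7) +
      ((96385351374137009 : ℝ) / 6003112500000) * (T ^ 19 * U ^ 6) +
      ((3355295689608433 : ℝ) / 360186750000) * (T ^ 20 * U ^ 5) +
      ((31342108705164287 : ℝ) / 7203735000000) * (T ^ 21 * U ^ 4) +
      ((1999616452314473 : ℝ) / 1286381250000) * (T ^ 22 * U ^ 3) +
      ((85502976490907 : ℝ) / 214396875000) * (T ^ 23 * U ^ 2) +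
      ((33012568909283 : ℝ) / 500259375000) * (T ^ 24 * U ^ 1) +
      ((3233309194691 : ℝ) / 600311250000) * (T ^ 25 * U ^ 0)) := by positivity
  have hd : (0 : ℝ) < (1 + T ^ 2) ^ 14 := by positivity
  refine nonneg_of_mul_nonneg_left (hpos.trans_eq ?_) hd
  field_simp
  rw [hT]
  ring

/-- The polynomial data for `l = 7`, `k = 8`. -/
noncomputable def data_7_8 : ClosedData 3 4 where
  p := fun C => (
    ((-239 : ℝ) / 2838528) + ((569 : ℝ) / 2401245) * C + ((-233 : ℝ) / 1419264) * C ^ 2 +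
      ((-463 : ℝ) / 8515584) * C ^ 4 + ((433 : ℝ) / 3548160) * C ^ 6 +
      ((-1343 : ℝ) / 19869696) * C ^ 8 + ((17 : ℝ) / 1824768) * C ^ 10 +
      ((1 : ℝ) / 495616) * C ^ 12)
  dp := fun C => (
    ((569 : ℝ) / 2401245) + ((-233 : ℝ) / 709632) * C + ((-463 : ℝ) / 2128896) * C ^ 3 +
      ((433 : ℝ) / 591360) * C ^ 5 + ((-1343 : ℝ) / 2483712) * C ^ 7 +
      ((85 : ℝ) / 912384) * C ^ 9 + ((3 : ℝ) / 123904) * C ^ 11)
  ddp := fun C => (
    ((-233 : ℝ) / 709632) + ((-463 : ℝ) / 709632) * C ^ 2 + ((433 : ℝ) / 118272) * C ^ 4 +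
      ((-1343 : ℝ) / 354816) * C ^ 6 + ((85 : ℝ) / 101376) * C ^ 8 + ((3 : ℝ) / 11264) * C ^ 10)
  r := fun C => (
    ((-239 : ℝ) / 2838528) + ((337177 : ℝ) / 4917749760) * C +
      ((562153 : ℝ) / 9835499520) * C ^ 2 + ((4687 : ℝ) / 102453120) * C ^ 3 +
      ((-98507 : ℝ) / 4917749760) * C ^ 4 + ((-42199 : ℝ) / 491774976) * C ^ 5 +
      ((-9689 : ℝ) / 327849984) * C ^ 6 + ((67 : ℝ) / 2509056) * C ^ 7 +
      ((617 : ℝ) / 40144896) * C ^ 8 + ((1 : ℝ) / 247808) * C ^ 9 + ((1 : ℝ) / 495616) * C ^ 10)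
  r' := fun C => (
    ((569 : ℝ) / 2401245) + ((-224689 : ℝ) / 2458874880) * C +
      ((-224689 : ℝ) / 2458874880) * C ^ 2 + ((-379727 : ℝ) / 1229437440) * C ^ 3 +
      ((-379727 : ℝ) / 1229437440) * C ^ 4 + ((3253 : ℝ) / 7683984) * C ^ 5 +
      ((3253 : ℝ) / 7683984) * C ^ 6 + ((-589 : ℝ) / 5018112) * C ^ 7 +
      ((-589 : ℝ) / 5018112) * C ^ 8 + ((-3 : ℝ) / 123904) * C ^ 9 +
      ((-3 : ℝ) / 123904) * C ^ 10)
  j := fun S => (
    ((-1 : ℝ) / 9216) * S ^ 9 + ((1 : ℝ) / 45056) * S ^ 11)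
  dj := fun S => (
    ((-1 : ℝ) / 1024) * S ^ 8 + ((1 : ℝ) / 4096) * S ^ 10)
  R := fun C => (
    ((-163 : ℝ) / 811008) * C + ((-725 : ℝ) / 2433024) * C ^ 3 + ((491 : ℝ) / 675840) * C ^ 5 +
      ((-1429 : ℝ) / 2838528) * C ^ 7 + ((593 : ℝ) / 7299072) * C ^ 9 +
      ((23 : ℝ) / 991232) * C ^ 11)
  dR := fun C => (
    ((-163 : ℝ) / 811008) + ((-725 : ℝ) / 811008) * C ^ 2 + ((491 : ℝ) / 135168) * C ^ 4 +
      ((-1429 : ℝ) / 405504) * C ^ 6 + ((593 : ℝ) / 811008) * C ^ 8 +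
      ((23 : ℝ) / 90112) * C ^ 10)
  deriv_p := fun C => ((((((((hasDerivAt_const C ((-239 : ℝ) / 2838528)).fun_add
      ((hasDerivAt_id' C).const_mul ((569 : ℝ) / 2401245))).fun_add
      ((hasDerivAt_pow 2 C).const_mul ((-233 : ℝ) / 1419264))).fun_add
      ((hasDerivAt_pow 4 C).const_mul ((-463 : ℝ) / 8515584))).fun_add
      ((hasDerivAt_pow 6 C).const_mul ((433 : ℝ) / 3548160))).fun_add
      ((hasDerivAt_pow 8 C).const_mul ((-1343 : ℝ) / 19869696))).fun_add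
      ((hasDerivAt_pow 10 C).const_mul ((17 : ℝ) / 1824768))).fun_add
      ((hasDerivAt_pow 12 C).const_mul ((1 : ℝ) / 495616))).congr_deriv (by simp <;> ring)
  deriv_dp := fun C => (((((((hasDerivAt_const C ((569 : ℝ) / 2401245)).fun_add
      ((hasDerivAt_id' C).const_mul ((-233 : ℝ) / 709632))).fun_add
      ((hasDerivAt_pow 3 C).const_mul ((-463 : ℝ) / 2128896))).fun_add
      ((hasDerivAt_pow 5 C).const_mul ((433 : ℝ) / 591360))).fun_add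
      ((hasDerivAt_pow 7 C).const_mul ((-1343 : ℝ) / 2483712))).fun_add
      ((hasDerivAt_pow 9 C).const_mul ((85 : ℝ) / 912384))).fun_add
      ((hasDerivAt_pow 11 C).const_mul ((3 : ℝ) / 123904))).congr_deriv (by simp <;> ring)
  deriv_j := fun S => (((hasDerivAt_pow 9 S).const_mul ((-1 : ℝ) / 9216)).fun_add
      ((hasDerivAt_pow 11 S).const_mul ((1 : ℝ) / 45056))).congr_deriv (by simp <;> ring)
  deriv_R := fun C => (((((((hasDerivAt_id' C).const_mul ((-163 : ℝ) / 811008)).fun_add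
      ((hasDerivAt_pow 3 C).const_mul ((-725 : ℝ) / 2433024))).fun_add
      ((hasDerivAt_pow 5 C).const_mul ((491 : ℝ) / 675840))).fun_add
      ((hasDerivAt_pow 7 C).const_mul ((-1429 : ℝ) / 2838528))).fun_add
      ((hasDerivAt_pow 9 C).const_mul ((593 : ℝ) / 7299072))).fun_add
      ((hasDerivAt_pow 11 C).const_mul ((23 : ℝ) / 991232))).congr_deriv (by simp <;> ring)
  fac := fun C => by ring
  fac' := fun C => by ring
  cont_r := by fun_prop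
  cont_r' := by fun_prop
  ode := fun C => by ring
  jd := fun S C h => by
    linear_combination (
    ((-1 : ℝ) / 1024) * C * (S ^ 6 * (1 - C ^ 2) ^ 0) +
      ((-1 : ℝ) / 1024) * C * (S ^ 4 * (1 - C ^ 2) ^ 1) +
      ((-1 : ℝ) / 1024) * C * (S ^ 2 * (1 - C ^ 2) ^ 2) +
      ((-1 : ℝ) / 1024) * C * (S ^ 0 * (1 - C ^ 2) ^ 3) +
      ((1 : ℝ) / 4096) * C * (S ^ 8 * (1 - C ^ 2) ^ 0) +
      ((1 : ℝ) / 4096) * C * (S ^ 6 * (1 - C ^ 2) ^ 1) +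
      ((1 : ℝ) / 4096) * C * (S ^ 4 * (1 - C ^ 2) ^ 2) +
      ((1 : ℝ) / 4096) * C * (S ^ 2 * (1 - C ^ 2) ^ 3) +
      ((1 : ℝ) / 4096) * C * (S ^ 0 * (1 - C ^ 2) ^ 4)) * h
  Rd := fun S C h => by
    linear_combination (
    ((1 : ℝ) / 9216) * (S ^ 7 * (1 - C ^ 2) ^ 0) + ((1 : ℝ) / 9216) * (S ^ 5 * (1 - C ^ 2) ^ 1) +
      ((1 : ℝ) / 9216) * (S ^ 3 * (1 - C ^ 2) ^ 2) +
      ((1 : ℝ) / 9216) * (S ^ 1 * (1 - C ^ 2) ^ 3) +
      ((-1 : ℝ) / 45056) * (S ^ 9 * (1 - C ^ 2) ^ 0) +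
      ((-1 : ℝ) / 45056) * (S ^ 7 * (1 - C ^ 2) ^ 1) +
      ((-1 : ℝ) / 45056) * (S ^ 5 * (1 - C ^ 2) ^ 2) +
      ((-1 : ℝ) / 45056) * (S ^ 3 * (1 - C ^ 2) ^ 3) +
      ((-1 : ℝ) / 45056) * (S ^ 1 * (1 - C ^ 2) ^ 4) + (-1 : ℝ) * ((((1 - C) / 2) ^ 4 + ((1 +
      C) / 2) ^ 4) / 256) * (S ^ 5 * (1 - C ^ 2) ^ 0) + (-1 : ℝ) * ((((1 - C) / 2) ^ 4 + ((1 +
      C) / 2) ^ 4) / 256) * (S ^ 3 * (1 - C ^ 2) ^ 1) + (-1 : ℝ) * ((((1 - C) / 2) ^ 4 + ((1 +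
      C) / 2) ^ 4) / 256) * (S ^ 1 * (1 - C ^ 2) ^ 2)) * h
  d_nonneg := by norm_num
  bound := fun S C hS hC h => by
    have hC1 : 0 < 1 + C := by linarith
    have hT0 : 0 ≤ S / (1 + C) := by positivity
    have hT1 : S / (1 + C) ≤ 1 := by rw [div_le_one hC1]; nlinarith
    have eS : 2 * (S / (1 + C)) / (1 + (S / (1 + C)) ^ 2) = S := by
      field_simp; linear_combination -h
    have eC : (1 - (S / (1 + C)) ^ 2) / (1 + (S / (1 + C)) ^ 2) = C := by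
      field_simp; linear_combination (-(1 + C)) * h
    have a := bound_7_8_0 _ hT0 hT1
    have b := bound_7_8_1 _ hT0 hT1
    simp only [eS, eC] at a b
    have lo : (15707963 : ℝ) / 5000000 ≤ π := by linarith [pi_gt_d20]
    have hi : π ≤ (31415927 : ℝ) / 10000000 := by linarith [pi_lt_d20]
    have key := affine_nonneg a b (by norm_num) lo (by linarith)
    norm_num at key ⊢
    linarith

end Vale.Agent.P231
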