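import Vale.Agent.P231.Final.Main
import Vale.Agent.P231.Cert.Case1_2
import Vale.Agent.P231.Cert.Case1_4
import Vale.Agent.P231.Cert.Case1_6
import Vale.Agent.P231.Cert.Case3_4
import Vale.Agent.P231.Cert.Case3_8
import Vale.Agent.P231.Cert.Case3_12
import Vale.Agent.P231.Cert.Case3_16
import Vale.Agent.P231.Cert.Case3_20
import Vale.Agent.P231.Cert.Case7_8

/-!
Volume rigidity for the projective planes and the other covered models.
-/

namespace Vale.Agent.P231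

open Real

/-- The covered pairs (multiplicity at half period, remaining dimension): `CP²`, `CP³`, `CP⁴`,
`HP²` to `HP⁶`, and `OP²`. -/
theorem exists_cert {lk : ℕ × ℕ}
    (h : lk ∈ [(1, 2), (1, 4), (1, 6), (3, 4), (3, 8), (3, 12), (3, 16), (3, 20), (7, 8)]) :
    1 ≤ lk.1 ∧ Nonempty (Cert lk.1 lk.2) := by
  simp only [List.mem_cons, List.not_mem_nil, or_false] at h
  rcases h with rfl | rfl | rfl | rfl | rfl | rfl | rfl | rfl | rfl
  · exact ⟨le_rfl, ⟨data_1_2.cert⟩⟩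
  · exact ⟨le_rfl, ⟨data_1_4.cert⟩⟩
  · exact ⟨le_rfl, ⟨data_1_6.cert⟩⟩
  · exact ⟨by norm_num, ⟨data_3_4.cert⟩⟩
  · exact ⟨by norm_num, ⟨data_3_8.cert⟩⟩
  · exact ⟨by norm_num, ⟨data_3_12.cert⟩⟩
  · exact ⟨by norm_num, ⟨data_3_16.cert⟩⟩
  · exact ⟨by norm_num, ⟨data_3_20.cert⟩⟩
  · exact ⟨by norm_num, ⟨data_7_8.cert⟩⟩

end Vale.Agent.P231
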