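import Vale.Agent.P231.Analysis.Integral
import Vale.Agent.P231.Cert.Affine

/-!
Certificates in closed form: `c (1 - x cot x) + p (cos x) / sin x` with `x = 2 t` and a polynomial `p`.
-/

namespace Vale.Agent.P231

open Real Set MeasureTheory Filter Topology

/-- Polynomial data for a closed-form certificate, for `l = 2 i + 1` and `k = 2 n`. -/
structure ClosedData (i n : ℕ) where
  /-- The polynomial part. -/
  p : ℝ → ℝ
  /-- Its derivative. -/
  dp : ℝ → ℝ
  /-- Its second derivative. -/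
  ddp : ℝ → ℝ
  /-- The cofactor of `(1 - C) ^ 2` in `p`. -/
  r : ℝ → ℝ
  /-- The cofactor of `1 - C` in the derivative of `p`. -/
  r' : ℝ → ℝ
  /-- The primitive, as a function of `sin x`. -/
  j : ℝ → ℝ
  /-- The derivative of `j`. -/
  dj : ℝ → ℝ
  /-- The primitive used for the margin. -/
  R : ℝ → ℝ
  /-- The derivative of `R`. -/
  dR : ℝ → ℝ
  deriv_p : ∀ C, HasDerivAt p (dp C) C
  deriv_dp : ∀ C, HasDerivAt dp (ddp C) C
  deriv_j : ∀ S, HasDerivAt j (dj S) S
  deriv_R : ∀ C, HasDerivAt R (dR C) C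
  fac : ∀ C, p C = (1 - C) ^ 2 * r C
  fac' : ∀ C, dp C = (1 - C) * r' C
  cont_r : Continuous r
  cont_r' : Continuous r'
  ode : ∀ C, (1 - C ^ 2) * ddp C + C * dp C - p C
    = -((1 - C ^ 2) ^ (i + 1)) / (4 * 2 ^ (2 * i + 1)) * (((1 - C) / 2) ^ n + ((1 + C) / 2) ^ n)
  jd : ∀ S C : ℝ, S ^ 2 + C ^ 2 = 1 → C * dj S = (1 - C ^ 2) ^ i / 2 ^ (2 * i + 2) *
    ((1 + C) / 2 * ((1 - C) / 2) ^ n - (1 - C) / 2 * ((1 + C) / 2) ^ n)
  Rd : ∀ S C : ℝ, S ^ 2 + C ^ 2 = 1 → -2 * S * dR C = S ^ (2 * i + 1) / 2 ^ (2 * i + 2) *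
    (((1 - C) / 2) ^ n + ((1 + C) / 2) ^ n) + j S
  d_nonneg : 0 ≤ dp 0
  bound : ∀ S C : ℝ, 0 < S → 0 ≤ C → S ^ 2 + C ^ 2 = 1 →
    (2 + S ^ 2) * (2 * dp 0 * (S - C * S - C * S ^ 3 / 6) + π * p C) + π * S ^ 3 * j S
      ≤ 4 * (R 0 - R 1) * S ^ 3

variable {i n : ℕ} (D : ClosedData i n)

namespace ClosedData

/-- The coefficient of the homogeneous solution. -/
noncomputable def coef : ℝ := 2 * D.dp 0 / π

/-- The multiplier. -/
noncomputable def sig (t : ℝ) : ℝ :=
  (D.coef * (sin (2 * t) - 2 * t * cos (2 * t)) + D.p (cos (2 * t))) / sin (2 * t)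

/-- Its derivative. -/
noncomputable def sig' (t : ℝ) : ℝ :=
  2 * (D.coef * (2 * t - sin (2 * t) * cos (2 * t))
    - (D.dp (cos (2 * t)) * sin (2 * t) ^ 2 + D.p (cos (2 * t)) * cos (2 * t))) / sin (2 * t) ^ 2

theorem sin_two_pos {t : ℝ} (ht : t ∈ Ioo (0 : ℝ) (π / 2)) : 0 < sin (2 * t) :=
  sin_pos_of_pos_of_lt_pi (by linarith [ht.1]) (by linarith [ht.2])

theorem dtwo (t : ℝ) : HasDerivAt (fun s => 2 * s) 2 t := by
  simpa using (hasDerivAt_id t).const_mul (2 : ℝ)

theorem hasDerivAt_sig {t : ℝ} (ht : t ∈ Ioo (0 : ℝ) (π / 2)) :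
    HasDerivAt D.sig (D.sig' t) t := by
  have hS := sin_two_pos ht
  have h1 := (dtwo t).sin
  have h2 := (dtwo t).cos
  have h3 := (D.deriv_p (cos (2 * t))).comp t h2
  refine ((((h1.fun_sub ((dtwo t).fun_mul h2)).const_mul D.coef).fun_add h3).fun_div h1
    hS.ne').congr_deriv ?_
  have e := sin_sq_add_cos_sq (2 * t)
  simp only [Function.comp_apply, sig']
  field_simp
  linear_combination (2 * D.coef * t) * e

theorem model_t {t : ℝ} : modelJacobian (2 * i + 1) (2 * n) t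
    = (sin (2 * t) / 2) ^ (2 * i + 1) * ((1 - cos (2 * t)) / 2) ^ n := by
  rw [modelJacobian, pow_mul, sin_two_mul, cos_two_mul]
  congr 1
  · ring
  · congr 1; linarith [sin_sq_add_cos_sq t]

theorem model_r {t : ℝ} : modelJacobian (2 * i + 1) (2 * n) (π / 2 - t)
    = (sin (2 * t) / 2) ^ (2 * i + 1) * ((1 + cos (2 * t)) / 2) ^ n := by
  rw [modelJacobian, pow_mul, sin_pi_div_two_sub, cos_pi_div_two_sub, sin_two_mul, cos_two_mul]
  congr 1
  · ring
  · congr 1; ring

theorem hasDerivAt_sig' {t : ℝ} (ht : t ∈ Ioo (0 : ℝ) (π / 2)) :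
    HasDerivAt D.sig' (2 * D.sig t / (sin t * cos t) ^ 2
      - (modelJacobian (2 * i + 1) (2 * n) t + modelJacobian (2 * i + 1) (2 * n) (π / 2 - t))) t := by
  have hS := sin_two_pos ht
  have h1 := (dtwo t).sin
  have h2 := (dtwo t).cos
  have h3 := (D.deriv_p (cos (2 * t))).comp t h2
  have h4 := (D.deriv_dp (cos (2 * t))).comp t h2
  refine (((((dtwo t).fun_sub (h1.fun_mul h2)).const_mul D.coef).fun_sub
    ((h4.fun_mul (h1.fun_pow 2)).fun_add (h3.fun_mul h2))).const_mul 2 |>.fun_div (h1.fun_pow 2)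
      (pow_ne_zero _ hS.ne')).congr_deriv ?_
  have hsc : sin t * cos t = sin (2 * t) / 2 := by rw [sin_two_mul]; ring
  rw [hsc, model_t, model_r, ← mul_add]
  have hode := D.ode (cos (2 * t))
  have e := sin_sq_add_cos_sq (2 * t)
  rw [show 1 - cos (2 * t) ^ 2 = sin (2 * t) ^ 2 by linarith, ← pow_mul,
    show 2 * (i + 1) = 2 * i + 1 + 1 by ring, pow_succ] at hode
  rw [div_pow (sin (2 * t))]
  simp only [Function.comp_apply, sig]
  set S := sin (2 * t)
  set C := cos (2 * t)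
  set Y := ((1 - C) / 2) ^ n + ((1 + C) / 2) ^ n
  set X := S ^ (2 * i + 1)
  set Z := (2 : ℝ) ^ (2 * i + 1) with hZ'
  have hZ : Z ≠ 0 := pow_ne_zero _ two_ne_zero
  push_cast
  field_simp
  field_simp at hode
  rw [div_pow S 2 (2 * i + 1)]
  have hY : S ^ 3 * (S ^ (2 * i + 1) / 2 ^ (2 * i + 1)) * Y
      = -4 * S ^ 2 * (S ^ 2 * D.ddp C + C * D.dp C - D.p C) := by
    rw [mul_div_assoc', div_mul_eq_mul_div, div_eq_iff (pow_ne_zero _ two_ne_zero), ← hZ']
    rw [pow_succ S (2 * i + 1)] at hode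
    linear_combination S ^ 2 * hode
  linear_combination hY + (4 * D.coef * S + 8 * D.p C) * e

theorem exists_bound : ∃ M, 0 ≤ M ∧ ∀ C ∈ Icc (0 : ℝ) 1, |D.r C| ≤ M ∧ |D.r' C| ≤ M := by
  obtain ⟨a, ha⟩ := isCompact_Icc.exists_bound_of_continuousOn
    (D.cont_r.continuousOn (s := Icc (0 : ℝ) 1))
  obtain ⟨b, hb⟩ := isCompact_Icc.exists_bound_of_continuousOn
    (D.cont_r'.continuousOn (s := Icc (0 : ℝ) 1))
  refine ⟨max (max a b) 0, le_max_right _ _, fun C hC => ⟨?_, ?_⟩⟩
  · exact (ha C hC).trans ((le_max_left _ _).trans (le_max_left _ _))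
  · exact (hb C hC).trans ((le_max_right _ _).trans (le_max_left _ _))

theorem angle_facts {t : ℝ} (ht : t ∈ Ioc (0 : ℝ) (π / 4)) :
    0 < sin (2 * t) ∧ 0 ≤ cos (2 * t) ∧ 2 * t * cos (2 * t) ≤ sin (2 * t) ∧
      sin (2 * t) ≤ 2 * t ∧ 1 - cos (2 * t) ≤ 2 * t ^ 2 ∧ t ≤ sin (2 * t) := by
  have hpi := pi_pos
  have h1 : 0 < sin (2 * t) := sin_two_pos ⟨ht.1, by linarith [ht.2]⟩
  have h2 : 0 ≤ cos (2 * t) := cos_nonneg_of_mem_Icc ⟨by linarith [ht.1], by linarith [ht.2]⟩
  refine ⟨h1, h2, ?_, sin_le (by linarith [ht.1]), by linarith [one_sub_sq_div_two_le_cos (x := 2 * t)],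
    ?_⟩
  · rcases eq_or_lt_of_le ht.2 with h | h
    · rw [h, show 2 * (π / 4) = π / 2 by ring, cos_pi_div_two, mul_zero, sin_pi_div_two]
      exact zero_le_one
    · have hc : 0 < cos (2 * t) := cos_pos_of_mem_Ioo ⟨by linarith [ht.1], by linarith⟩
      have := le_tan (x := 2 * t) (by linarith [ht.1]) (by linarith)
      rwa [tan_eq_sin_div_cos, le_div_iff₀ hc] at this
  · have h := mul_le_sin (x := 2 * t) (by linarith [ht.1]) (by linarith [ht.2])
    refine le_trans ?_ h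
    have : 1 / 2 ≤ 2 / π := by rw [le_div_iff₀ hpi]; linarith [pi_le_four]
    calc t = 1 / 2 * (2 * t) := by ring
      _ ≤ 2 / π * (2 * t) := mul_le_mul_of_nonneg_right this (by linarith [ht.1])

theorem small : ∃ Cs, ∀ t ∈ Ioc (0 : ℝ) (π / 4),
    |D.sig t| ≤ Cs * t ^ 2 ∧ |D.sig' t| ≤ Cs * t := by
  obtain ⟨M, hM0, hM⟩ := D.exists_bound
  refine ⟨2 * (16 * |D.coef| + 16 * M), fun t ht => ?_⟩
  obtain ⟨hS, hC, h3, h4, h5, h6⟩ := angle_facts ht
  have hC1 := cos_le_one (2 * t)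
  obtain ⟨m1, m2⟩ := hM _ ⟨hC, hC1⟩
  have t0 := ht.1
  have t1 : t ≤ 1 := by linarith [ht.2, pi_le_four]
  set S := sin (2 * t) with hSdef
  set C := cos (2 * t) with hCdef
  have hp : |D.p C| ≤ 4 * M * t ^ 4 := by
    rw [D.fac, abs_mul, abs_of_nonneg (sq_nonneg _)]
    calc (1 - C) ^ 2 * |D.r C| ≤ (2 * t ^ 2) ^ 2 * M :=
          mul_le_mul (pow_le_pow_left₀ (by linarith) h5 2) m1 (abs_nonneg _) (by positivity)
      _ = _ := by ring
  have hdp : |D.dp C| ≤ 2 * M * t ^ 2 := by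
    rw [D.fac', abs_mul, abs_of_nonneg (by linarith : 0 ≤ 1 - C)]
    calc (1 - C) * |D.r' C| ≤ 2 * t ^ 2 * M := mul_le_mul h5 m2 (abs_nonneg _) (by positivity)
      _ = _ := by ring
  have hC3 : 2 * t * (1 - C) ≤ 4 * t ^ 3 := by
    calc 2 * t * (1 - C) ≤ 2 * t * (2 * t ^ 2) := mul_le_mul_of_nonneg_left h5 (by linarith)
      _ = _ := by ring
  have hA : |S - 2 * t * C| ≤ 4 * t ^ 3 := by
    rw [abs_of_nonneg (by linarith)]; linarith
  have hB : |2 * t - S * C| ≤ 8 * t ^ 3 := by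
    have hSC : S * C ≤ S := mul_le_of_le_one_right hS.le hC1
    rw [abs_of_nonneg (by linarith)]
    have : S * (1 - C) ≤ 2 * t * (1 - C) := mul_le_mul_of_nonneg_right h4 (by linarith)
    linarith
  constructor
  · rw [sig, abs_div, abs_of_pos hS, div_le_iff₀ hS]
    calc |D.coef * (S - 2 * t * C) + D.p C| ≤ |D.coef| * (4 * t ^ 3) + 4 * M * t ^ 4 := by
          refine (abs_add_le _ _).trans (add_le_add ?_ hp)
          rw [abs_mul]; exact mul_le_mul_of_nonneg_left hA (abs_nonneg _)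
      _ ≤ 2 * (16 * |D.coef| + 16 * M) * t ^ 2 * t := by
          nlinarith [pow_nonneg t0.le 3, abs_nonneg D.coef, mul_le_of_le_one_right (pow_nonneg t0.le 3) t1,
            mul_nonneg hM0 (pow_nonneg t0.le 3), mul_nonneg (abs_nonneg D.coef) (pow_nonneg t0.le 3),
            mul_le_mul_of_nonneg_left (mul_le_of_le_one_right (pow_nonneg t0.le 3) t1) hM0]
      _ ≤ _ := mul_le_mul_of_nonneg_left h6 (by positivity)
  · rw [sig', abs_div, abs_mul, abs_two, abs_of_pos (pow_pos hS 2), div_le_iff₀ (pow_pos hS 2)]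
    have hS1 : S ^ 2 ≤ 4 * t ^ 2 := by
      calc S ^ 2 ≤ (2 * t) ^ 2 := pow_le_pow_left₀ hS.le h4 2
        _ = _ := by ring
    have e1 : |D.coef * (2 * t - S * C) - (D.dp C * S ^ 2 + D.p C * C)|
        ≤ |D.coef| * (8 * t ^ 3) + (2 * M * t ^ 2 * (4 * t ^ 2) + 4 * M * t ^ 4) := by
      refine (abs_sub _ _).trans (add_le_add ?_ ((abs_add_le _ _).trans (add_le_add ?_ ?_)))
      · rw [abs_mul]; exact mul_le_mul_of_nonneg_left hB (abs_nonneg _)
      · rw [abs_mul, abs_of_nonneg (sq_nonneg S)]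
        exact mul_le_mul hdp hS1 (sq_nonneg _) (by positivity)
      · rw [abs_mul, abs_of_nonneg hC]
        exact (mul_le_of_le_one_right (abs_nonneg _) hC1).trans hp
    calc 2 * |D.coef * (2 * t - S * C) - (D.dp C * S ^ 2 + D.p C * C)|
        ≤ 2 * (16 * |D.coef| + 16 * M) * t * t ^ 2 := by
          have a1 : 0 ≤ M * t ^ 3 := mul_nonneg hM0 (pow_nonneg t0.le 3)
          have a2 : 0 ≤ |D.coef| * t ^ 3 := mul_nonneg (abs_nonneg _) (pow_nonneg t0.le 3)
          have a3 : M * t ^ 4 ≤ M * t ^ 3 :=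
            mul_le_mul_of_nonneg_left (pow_le_pow_of_le_one t0.le t1 (by norm_num)) hM0
          have a4 : 2 * (16 * |D.coef| + 16 * M) * t * t ^ 2
              = 32 * (|D.coef| * t ^ 3) + 32 * (M * t ^ 3) := by ring
          rw [a4]
          linarith [abs_nonneg (D.coef * (2 * t - S * C) - (D.dp C * S ^ 2 + D.p C * C))]
      _ ≤ _ := mul_le_mul_of_nonneg_left (pow_le_pow_left₀ t0.le h6 2) (by positivity)

theorem nonneg : ∀ t ∈ Ioc (0 : ℝ) (π / 4), 0 ≤ D.sig t := by
  intro t1 ht1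
  by_contra hneg
  push Not at hneg
  have hpi := pi_pos
  obtain ⟨Cs, hCs⟩ := D.small
  -- a left end where the value is above `D.sig t1`
  have hlim : Tendsto (fun t => Cs * t ^ 2) (𝓝[>] (0 : ℝ)) (𝓝 0) := by
    have : Continuous fun t : ℝ => Cs * t ^ 2 := by fun_prop
    have := this.tendsto 0
    simp at this
    exact tendsto_nhdsWithin_of_tendsto_nhds this
  have hsml : ∀ᶠ t in 𝓝[>] (0 : ℝ), Cs * t ^ 2 < -D.sig t1 ∧ t < t1 :=
    (hlim.eventually (gt_mem_nhds (by linarith))).and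
      (eventually_nhdsWithin_of_eventually_nhds (gt_mem_nhds ht1.1))
  obtain ⟨e, ⟨he1, he2⟩, he0⟩ := (hsml.and self_mem_nhdsWithin).exists
  replace he0 : 0 < e := he0
  have hsub : Icc e (π / 4) ⊆ Ioo 0 (π / 2) := fun s hs => ⟨by linarith [hs.1], by linarith [hs.2]⟩
  have hcont : ContinuousOn D.sig (Icc e (π / 4)) := fun s hs =>
    (D.hasDerivAt_sig (hsub hs)).continuousAt.continuousWithinAt
  obtain ⟨t0, ht0, hmin⟩ := isCompact_Icc.exists_isMinOn (nonempty_Icc.2 (he2.le.trans ht1.2)) hcont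
  have hv : D.sig t0 ≤ D.sig t1 := hmin ⟨he2.le, ht1.2⟩
  have hne : e < t0 := by
    rcases eq_or_lt_of_le ht0.1 with h | h
    · exfalso
      have := (hCs e ⟨he0, by linarith [ht1.2]⟩).1
      rw [h] at this he1
      linarith [neg_abs_le (D.sig t0)]
    · exact h
  have hd0 : D.sig' t0 = 0 := by
    rcases eq_or_lt_of_le ht0.2 with h | h
    · rw [h, sig', show 2 * (π / 4) = π / 2 by ring, sin_pi_div_two, cos_pi_div_two, coef]
      field_simp; ring
    · exact ((hmin.isLocalMin (Icc_mem_nhds hne h)).hasDerivAt_eq_zero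
        (D.hasDerivAt_sig (hsub ht0)))
  have hev : ∀ᶠ s in 𝓝 t0, D.sig s < 0 :=
    (D.hasDerivAt_sig (hsub ht0)).continuousAt.eventually (gt_mem_nhds (by linarith))
  obtain ⟨δ, hδ, hball⟩ := Metric.eventually_nhds_iff.1 hev
  have ha : max e (t0 - δ) < t0 := max_lt hne (by linarith)
  set a := max e (t0 - δ) with hadef
  have hIcc : Icc a t0 ⊆ Icc e (π / 4) := Icc_subset_Icc (le_max_left _ _) ht0.2
  have hanti : StrictAntiOn D.sig' (Icc a t0) := by
    refine strictAntiOn_of_hasDerivWithinAt_neg (convex_Icc _ _)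
      (f' := fun s => 2 * D.sig s / (sin s * cos s) ^ 2 - (modelJacobian (2 * i + 1) (2 * n) s
        + modelJacobian (2 * i + 1) (2 * n) (π / 2 - s))) ?_ ?_ ?_
    · exact fun s hs => (D.hasDerivAt_sig' (hsub (hIcc hs))).continuousAt.continuousWithinAt
    · intro s hs; rw [interior_Icc] at hs
      exact (D.hasDerivAt_sig' (hsub (hIcc (Ioo_subset_Icc_self hs)))).hasDerivWithinAt
    · intro s hs; rw [interior_Icc] at hs
      have hs' := hsub (hIcc (Ioo_subset_Icc_self hs))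
      have hsn : D.sig s < 0 := hball (by
        rw [Real.dist_eq, abs_lt]
        constructor <;> linarith [hs.1, hs.2, le_max_right e (t0 - δ)])
      have hS := sin_two_pos hs'
      have hm : 0 ≤ modelJacobian (2 * i + 1) (2 * n) s
          + modelJacobian (2 * i + 1) (2 * n) (π / 2 - s) := by
        rw [model_t, model_r]
        have := cos_le_one (2 * s)
        have := neg_one_le_cos (2 * s)
        have : 0 ≤ (1 - cos (2 * s)) / 2 := by linarith
        have : 0 ≤ (1 + cos (2 * s)) / 2 := by linarith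
        positivity
      have : 2 * D.sig s / (sin s * cos s) ^ 2 < 0 := by
        apply div_neg_of_neg_of_pos (by linarith)
        rw [show sin s * cos s = sin (2 * s) / 2 by rw [sin_two_mul]; ring]
        positivity
      linarith
  have hmono : StrictMonoOn D.sig (Icc a t0) := by
    refine strictMonoOn_of_hasDerivWithinAt_pos (convex_Icc _ _) (f' := D.sig') ?_ ?_ ?_
    · exact hcont.mono hIcc
    · intro s hs; rw [interior_Icc] at hs
      exact (D.hasDerivAt_sig (hsub (hIcc (Ioo_subset_Icc_self hs)))).hasDerivWithinAt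
    · intro s hs; rw [interior_Icc] at hs
      have := hanti (Ioo_subset_Icc_self hs) (right_mem_Icc.2 ha.le) hs.2
      rwa [hd0] at this
  have := hmono (left_mem_Icc.2 ha.le) (right_mem_Icc.2 ha.le) ha
  exact absurd (hmin (hIcc (left_mem_Icc.2 ha.le))) (not_le.2 this)

theorem hasDerivAt_J {t : ℝ} (ht : t ∈ Ioo (0 : ℝ) (π / 2)) :
    HasDerivAt (fun s => D.j (sin (2 * s)))
      ((cos t ^ 2 * modelJacobian (2 * i + 1) (2 * n) t
        - sin t ^ 2 * modelJacobian (2 * i + 1) (2 * n) (π / 2 - t)) / (2 * sin t * cos t)) t := by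
  have hS := sin_two_pos ht
  refine ((D.deriv_j _).comp t (dtwo t).sin).congr_deriv ?_
  have e := sin_sq_add_cos_sq (2 * t)
  have hjd := D.jd (sin (2 * t)) (cos (2 * t)) e
  rw [show 1 - cos (2 * t) ^ 2 = sin (2 * t) ^ 2 by linarith, ← pow_mul] at hjd
  rw [model_t, model_r, show 2 * sin t * cos t = sin (2 * t) by rw [sin_two_mul],
    show cos t ^ 2 = (1 + cos (2 * t)) / 2 by rw [cos_two_mul]; ring,
    show sin t ^ 2 = (1 - cos (2 * t)) / 2 by rw [cos_two_mul]; linarith [sin_sq_add_cos_sq t],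
    eq_div_iff hS.ne', div_pow (sin (2 * t)) 2, pow_succ (sin (2 * t)), pow_succ (2 : ℝ) (2 * i)]
  rw [show 2 * i + 2 = 2 * i + 1 + 1 by ring, pow_succ, pow_succ] at hjd
  linear_combination (2 * sin (2 * t)) * hjd

theorem upper {t : ℝ} (ht : t ∈ Ioc (0 : ℝ) (π / 4)) :
    D.sig t / (2 * (sin t * cos t) ^ 2) + D.sig t + D.j (sin (2 * t))
      ≤ 4 * (D.R 0 - D.R 1) / π := by
  obtain ⟨hS, hC, -, -, -, -⟩ := angle_facts ht
  have hpi := pi_pos
  have e := sin_sq_add_cos_sq (2 * t)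
  have hb := D.bound _ _ hS hC e
  have hx : sin (2 * t) + sin (2 * t) ^ 3 / 6 ≤ 2 * t := by
    have hd : ∀ x : ℝ, HasDerivAt (fun x => x - sin x - sin x ^ 3 / 6)
        (1 - cos x - sin x ^ 2 * cos x / 2) x := fun x => by
      refine (((hasDerivAt_id x).fun_sub (hasDerivAt_sin x)).fun_sub
        (((hasDerivAt_sin x).fun_pow 3).div_const 6)).congr_deriv ?_
      push_cast; ring
    have hm : MonotoneOn (fun x => x - sin x - sin x ^ 3 / 6) (Ici 0) := by
      refine monotoneOn_of_hasDerivWithinAt_nonneg (convex_Ici _)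
        (fun x _ => (hd x).continuousAt.continuousWithinAt)
        (fun x _ => (hd x).hasDerivWithinAt) (fun x _ => ?_)
      have h1 := sin_sq_add_cos_sq x
      have h2 := neg_one_le_cos x
      have h3 := cos_le_one x
      nlinarith [mul_nonneg (sq_nonneg (1 - cos x)) (by linarith : (0 : ℝ) ≤ 2 + cos x)]
    have := hm self_mem_Ici (show (2 * t) ∈ Ici (0 : ℝ) by show (0 : ℝ) ≤ 2 * t; linarith [ht.1])
      (by linarith [ht.1])
    simp at this
    linarith
  have hco : 0 ≤ D.coef := div_nonneg (by linarith [D.d_nonneg]) hpi.le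
  have hnum : D.coef * (sin (2 * t) - 2 * t * cos (2 * t)) + D.p (cos (2 * t))
      ≤ D.coef * (sin (2 * t) - cos (2 * t) * sin (2 * t) - cos (2 * t) * sin (2 * t) ^ 3 / 6)
        + D.p (cos (2 * t)) := by
    have : cos (2 * t) * (sin (2 * t) + sin (2 * t) ^ 3 / 6) ≤ cos (2 * t) * (2 * t) :=
      mul_le_mul_of_nonneg_left hx hC
    have := mul_le_mul_of_nonneg_left (show sin (2 * t) - 2 * t * cos (2 * t)
      ≤ sin (2 * t) - cos (2 * t) * sin (2 * t) - cos (2 * t) * sin (2 * t) ^ 3 / 6 by linarith) hco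
    linarith
  rw [show sin t * cos t = sin (2 * t) / 2 by rw [sin_two_mul]; ring, sig]
  set S := sin (2 * t)
  set C := cos (2 * t)
  set A := D.coef * (S - 2 * t * C) + D.p C
  set B := D.coef * (S - C * S - C * S ^ 3 / 6) + D.p C
  have hB : B * π = 2 * D.dp 0 * (S - C * S - C * S ^ 3 / 6) + π * D.p C := by
    simp only [B, coef]; field_simp
  rw [← hB] at hb
  have h2 : (2 + S ^ 2) * A ≤ (2 + S ^ 2) * B := mul_le_mul_of_nonneg_left hnum (by positivity)
  rw [show A / S / (2 * (S / 2) ^ 2) + A / S + D.j S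
    = ((2 + S ^ 2) * A + S ^ 3 * D.j S) / S ^ 3 by field_simp,
    div_le_div_iff₀ (pow_pos hS 3) hpi]
  have h3 := mul_le_mul_of_nonneg_right h2 hpi.le
  linarith

theorem margin : 4 * (D.R 0 - D.R 1) / π * (π / 4) ≤
    ∫ t in (0 : ℝ)..(π / 4), (D.sig t / (sin t * cos t) ^ 2 + D.j (sin (2 * t))) := by
  have hpi := pi_pos
  have hq : (0 : ℝ) < π / 4 := by positivity
  have hinI : ∀ t ∈ Ioc (0 : ℝ) (π / 4), t ∈ Ioo (0 : ℝ) (π / 2) := fun t ht =>
    ⟨ht.1, by linarith [ht.2]⟩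
  obtain ⟨Cs, hCs⟩ := D.small
  have hjc : Continuous D.j := continuous_iff_continuousAt.2 fun s => (D.deriv_j s).continuousAt
  have hMi : IntervalIntegrable (fun t => D.sig t / (sin t * cos t) ^ 2 + D.j (sin (2 * t)))
      volume 0 (π / 4) := by
    apply IntervalIntegrable.add _ ((hjc.comp (by fun_prop)).intervalIntegrable _ _)
    rw [intervalIntegrable_iff_integrableOn_Ioc_of_le hq.le]
    refine IntegrableOn.of_bound (C := Cs * π ^ 2) measure_Ioc_lt_top ?_ ?_
    · refine ContinuousOn.aestronglyMeasurable ?_ measurableSet_Ioc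
      refine ContinuousOn.div (fun t ht => (D.hasDerivAt_sig (hinI t ht)).continuousAt.continuousWithinAt)
        (by fun_prop) fun t ht => ?_
      exact pow_ne_zero _ (ne_of_gt (lt_of_lt_of_le (div_pos ht.1 hpi) (sin_mul_cos_lower ht)))
    · refine (ae_restrict_iff' measurableSet_Ioc).2 (Eventually.of_forall fun t ht => ?_)
      have h3 : 0 < t / π := div_pos ht.1 hpi
      have h4 : (t / π) ^ 2 ≤ (sin t * cos t) ^ 2 := pow_le_pow_left₀ h3.le (sin_mul_cos_lower ht) 2
      have h1 := (hCs t ht).1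
      rw [norm_eq_abs, abs_div, abs_of_nonneg (sq_nonneg (sin t * cos t))]
      calc |D.sig t| / (sin t * cos t) ^ 2 ≤ Cs * t ^ 2 / (t / π) ^ 2 :=
            div_le_div₀ ((abs_nonneg _).trans h1) h1 (by positivity) h4
        _ = Cs * π ^ 2 := by have := ne_of_gt ht.1; field_simp
  let G : ℝ → ℝ := fun t => D.sig' t / 2 + D.R (cos (2 * t))
  have hGd : ∀ t ∈ Ioo (0 : ℝ) (π / 2),
      HasDerivAt G (D.sig t / (sin t * cos t) ^ 2 + D.j (sin (2 * t))) t := by
    intro t ht
    refine (((D.hasDerivAt_sig' ht).div_const 2).fun_add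
      ((D.deriv_R _).comp t (dtwo t).cos)).congr_deriv ?_
    have hRd := D.Rd (sin (2 * t)) (cos (2 * t)) (sin_sq_add_cos_sq _)
    rw [model_t, model_r, div_pow (sin (2 * t))]
    rw [show 2 * i + 2 = 2 * i + 1 + 1 by ring, pow_succ (2 : ℝ) (2 * i + 1)] at hRd
    linear_combination hRd
  have hGc : ContinuousOn (fun t => if t = 0 then D.R 1 else G t) (Icc 0 (π / 4)) := by
    intro t ht
    rcases eq_or_lt_of_le ht.1 with h0 | h0
    · subst h0
      rw [← Ioc_insert_left hq.le, continuousWithinAt_insert_self, ContinuousWithinAt, if_pos rfl]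
      have hR : Tendsto (fun t => D.R (cos (2 * t))) (𝓝[Ioc (0 : ℝ) (π / 4)] 0) (𝓝 (D.R 1)) := by
        have : Continuous fun t => D.R (cos (2 * t)) :=
          (continuous_iff_continuousAt.2 fun s => (D.deriv_R s).continuousAt).comp (by fun_prop)
        have := this.tendsto 0
        simp at this
        exact tendsto_nhdsWithin_of_tendsto_nhds this
      have hs : Tendsto (fun t => D.sig' t / 2) (𝓝[Ioc (0 : ℝ) (π / 4)] 0) (𝓝 0) := by
        apply squeeze_zero_norm' (a := fun t => Cs * t / 2)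
        · filter_upwards [self_mem_nhdsWithin] with s hs
          rw [norm_eq_abs, abs_div, abs_two]
          exact div_le_div_of_nonneg_right (hCs s hs).2 two_pos.le
        · have : Continuous fun t : ℝ => Cs * t / 2 := by fun_prop
          have := this.tendsto 0
          simp at this
          exact tendsto_nhdsWithin_of_tendsto_nhds this
      have := hs.add hR
      rw [zero_add] at this
      apply this.congr'
      filter_upwards [self_mem_nhdsWithin] with s hs'
      rw [if_neg (ne_of_gt hs'.1)]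
    · refine ((hGd t ⟨h0, by linarith [ht.2]⟩).continuousAt.congr ?_).continuousWithinAt
      filter_upwards [Ioi_mem_nhds h0] with s hs
      rw [if_neg (ne_of_gt hs)]
  have key := intervalIntegral.integral_eq_sub_of_hasDerivAt_of_le hq.le hGc
    (fun t ht => (hGd t ⟨ht.1, by linarith [ht.2]⟩).congr_of_eventuallyEq (by
      filter_upwards [Ioi_mem_nhds ht.1] with s hs
      rw [if_neg (ne_of_gt hs)])) hMi
  rw [key, if_pos rfl, if_neg hq.ne']
  simp only [G, sig', show 2 * (π / 4) = π / 2 by ring, sin_pi_div_two, cos_pi_div_two, coef]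
  apply le_of_eq
  field_simp
  ring

/-- The certificate attached to the closed-form data. -/
noncomputable def cert : Cert (2 * i + 1) (2 * n) where
  Sig := D.sig
  Sig' := D.sig'
  J := fun t => D.j (sin (2 * t))
  K := 4 * (D.R 0 - D.R 1) / π
  deriv_Sig := fun _ ht => D.hasDerivAt_sig ht
  deriv_Sig' := fun _ ht => D.hasDerivAt_sig' ht
  deriv_J := fun _ ht => D.hasDerivAt_J ht
  cont_J := (continuous_iff_continuousAt.2 fun s => (D.deriv_j s).continuousAt).comp
    (continuous_sin.comp (continuous_const.mul continuous_id))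
  Sig'_mid := by
    simp only [sig', show 2 * (π / 4) = π / 2 by ring, sin_pi_div_two, cos_pi_div_two, coef]
    field_simp; ring
  small := D.small
  nonneg := D.nonneg
  upper := fun _ ht => D.upper ht
  margin := D.margin

end ClosedData

end Vale.Agent.P231
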